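import Vale.Agent.P255.Piece.Ends

/-!
The circle valued function winding once around each puncture.
-/

open Set Filter
open scoped ContDiff Topology

namespace Vale.Agent.P255.Build

noncomputable section

variable {N : ℕ}

/-- The direction seen from a centre. -/
def dirTo (e : Fin N) (z : ℝ × ℝ) : ℂ :=
  (((z.1 - ctr e : ℝ) : ℂ) + ((z.2 : ℝ) : ℂ) * Complex.I) / ((Real.sqrt (qd e z) : ℝ) : ℂ)

/-- The phase. -/
def phase (N : ℕ) (z : ℝ × ℝ) : ℂ := ∏ i ∈ fins N, dirTo i z

theorem norm_dirTo {e : Fin N} {z : ℝ × ℝ} (hz : 0 < qd e z) : ‖dirTo e z‖ = 1 := by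
  rw [dirTo, norm_div, Complex.norm_real, Complex.norm_add_mul_I, Real.norm_eq_abs,
    abs_of_pos (Real.sqrt_pos.2 hz)]
  exact div_self (Real.sqrt_pos.2 hz).ne'

theorem continuousOn_phase (h : Ok N) : ContinuousOn (phase N) (dom N) := by
  refine continuousOn_finsetProd _ fun i hi => ?_
  unfold dirTo
  refine ContinuousOn.div (by fun_prop)
    (Complex.continuous_ofReal.comp (Real.continuous_sqrt.comp (continuous_qd i))).continuousOn
    fun z hz => ?_
  exact_mod_cast (Real.sqrt_pos.2 (((mem_dom_iff h).1 hz).1 i (mem_fins.1 hi))).ne'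

theorem norm_phase (h : Ok N) {z : ℝ × ℝ} (hz : z ∈ dom N) : ‖phase N z‖ = 1 := by
  rw [phase, norm_prod]
  exact Finset.prod_eq_one fun i hi => norm_dirTo (((mem_dom_iff h).1 hz).1 i (mem_fins.1 hi))

theorem exp_arctan {a b : ℝ} (ha : a ≠ 0) :
    Complex.exp (((Real.arctan (b / a) + if a < 0 then Real.pi else 0 : ℝ) : ℂ) * Complex.I) =
      ((a : ℂ) + (b : ℂ) * Complex.I) / ((Real.sqrt (a ^ 2 + b ^ 2) : ℝ) : ℂ) := by
  have hs : 0 < Real.sqrt (1 + (b / a) ^ 2) := Real.sqrt_pos.2 (by positivity)
  have hn : Real.sqrt (a ^ 2 + b ^ 2) = |a| * Real.sqrt (1 + (b / a) ^ 2) := by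
    rw [← Real.sqrt_sq_eq_abs, ← Real.sqrt_mul (sq_nonneg a)]
    congr 1
    field_simp
  apply Complex.ext
  · rw [Complex.exp_ofReal_mul_I_re, Complex.div_ofReal_re, hn]
    simp only [Complex.add_re, Complex.ofReal_re, Complex.mul_I_re, Complex.ofReal_im, neg_zero,
      add_zero]
    split_ifs with hneg
    · rw [Real.cos_add_pi, Real.cos_arctan, abs_of_neg hneg]; field_simp
    · rw [add_zero, Real.cos_arctan, abs_of_nonneg (not_lt.1 hneg)]; field_simp
  · rw [Complex.exp_ofReal_mul_I_im, Complex.div_ofReal_im, hn]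
    simp only [Complex.add_im, Complex.ofReal_im, Complex.mul_I_im, Complex.ofReal_re, zero_add]
    split_ifs with hneg
    · rw [Real.sin_add_pi, Real.sin_arctan, abs_of_neg hneg]; field_simp
    · rw [add_zero, Real.sin_arctan, abs_of_nonneg (not_lt.1 hneg)]; field_simp

/-- The constant part of the angle. -/
def branch (e i : Fin N) : ℝ := if e.val ≠ 0 ∧ e.val < i.val then Real.pi else 0

/-- The winding part of the angle. -/
def turn (e : Fin N) (s : ℝ) : ℝ := sgn e * (2 * Real.pi * s) - Real.pi / 2

theorem dirTo_circlePt_self (e : Fin N) (t s : ℝ) :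
    dirTo e (circlePt e t s) = Complex.exp (((turn e s : ℝ) : ℂ) * Complex.I) := by
  have hr : 0 < radius e t := Real.exp_pos _
  rw [dirTo, qd_circlePt, Real.sqrt_sq hr.le]
  have hs : sgn e = 1 ∨ sgn e = -1 := by unfold sgn; split_ifs <;> simp
  apply Complex.ext
  · rw [Complex.exp_ofReal_mul_I_re, Complex.div_ofReal_re, turn, Real.cos_sub_pi_div_two]
    simp only [Complex.add_re, Complex.ofReal_re, Complex.mul_I_re, Complex.ofReal_im, neg_zero,
      add_zero, circlePt]
    rcases hs with h | h <;> rw [h] <;> simp [Real.sin_neg] <;> field_simp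
  · rw [Complex.exp_ofReal_mul_I_im, Complex.div_ofReal_im, turn, Real.sin_sub_pi_div_two]
    simp only [Complex.add_im, Complex.ofReal_im, Complex.mul_I_im, Complex.ofReal_re, zero_add,
      circlePt]
    rcases hs with h | h <;> rw [h] <;> simp [Real.cos_neg] <;> field_simp

theorem dirTo_circlePt (h : Ok N) {e i : Fin N} (hi : i.val ≠ 0) {t : ℝ} (ht : t ∈ Icc (-5 : ℝ) 5)
    (s : ℝ) : dirTo i (circlePt e t s) =
      Complex.exp (((angle e i (circlePt e t s) + branch e i + mult e i * turn e s : ℝ) : ℂ) *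
        Complex.I) := by
  have hzc := circlePt_mem_cut h e ht s
  set z := circlePt e t s with hz
  by_cases he : e.val = 0
  · have hA := zone_outer_re_pos (i := i) he hzc
    have hself : dirTo e z = Complex.exp (((turn e s : ℝ) : ℂ) * Complex.I) :=
      dirTo_circlePt_self e t s
    have hq := hzc.1
    have hqi := zone_qd_pos hi hzc
    have hang : angle e i z = Real.arctan (ctr i * z.2 / (qd e z - ctr i * z.1)) +
        (if qd e z - ctr i * z.1 < 0 then Real.pi else 0) := by
      rw [angle, if_pos he, if_neg hA.not_gt, add_zero]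
    have hc : ctr e = 0 := by simp [ctr, he]
    have hd : (qd e z - ctr i * z.1) ^ 2 + (ctr i * z.2) ^ 2 = qd e z * qd i z := by
      simp only [qd, hc]; ring
    simp only [branch, mult, he, ne_eq, not_true_eq_false, false_and, if_false, true_or, if_true,
      add_zero, one_mul, Complex.ofReal_add, add_mul, Complex.exp_add, ← hself]
    rw [hang, exp_arctan hA.ne', hd]
    simp only [dirTo, hc, sub_zero]
    have s1 : Real.sqrt (qd e z * qd i z) = Real.sqrt (qd e z) * Real.sqrt (qd i z) :=
      Real.sqrt_mul hq.le _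
    have n1 : ((Real.sqrt (qd e z) : ℝ) : ℂ) ≠ 0 := by exact_mod_cast (Real.sqrt_pos.2 hq).ne'
    have n2 : ((Real.sqrt (qd i z) : ℝ) : ℂ) ≠ 0 := by exact_mod_cast (Real.sqrt_pos.2 hqi).ne'
    have hq' : ((Real.sqrt (qd e z) : ℝ) : ℂ) ^ 2 = ((z.1 ^ 2 + z.2 ^ 2 : ℝ) : ℂ) := by
      rw [← Complex.ofReal_pow, Real.sq_sqrt hq.le, qd, hc, sub_zero]
    have hqq : qd e z = z.1 ^ 2 + z.2 ^ 2 := by rw [qd, hc, sub_zero]
    rw [s1]
    push_cast
    field_simp
    rw [hq', hqq]
    push_cast
    linear_combination (-((ctr i : ℂ) * (z.2 : ℂ) ^ 2)) * Complex.I_sq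
  · rcases eq_or_ne i e with rfl | hie
    · have : angle i i z = 0 := by simp [angle, he]
      rw [this]
      simp [branch, mult, hz, dirTo_circlePt_self]
    · have hne := zone_re_ne he hie hzc
      have hang : angle e i z = Real.arctan (z.2 / (z.1 - ctr i)) := by simp [angle, he, hie]
      have hbr : branch e i = if z.1 - ctr i < 0 then Real.pi else 0 := by
        have h1 := zone_finite he hzc
        simp only [qd] at h1
        have hx : |z.1 - ctr e| < 1 / 2 := by
          rw [← Real.sqrt_sq_eq_abs, Real.sqrt_lt' (by norm_num)]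
          nlinarith
        rw [abs_lt] at hx
        rcases lt_or_gt_of_ne (fun hh : i.val = e.val => hie (Fin.ext hh)) with hlt | hlt
        · have : ctr i + 1 ≤ ctr e := by unfold ctr; exact_mod_cast hlt
          rw [branch, if_neg (by omega), if_neg (by linarith)]
        · have : ctr e + 1 ≤ ctr i := by unfold ctr; exact_mod_cast hlt
          rw [branch, if_pos ⟨he, hlt⟩, if_pos (by linarith)]
      simp only [mult, he, hie, or_self, if_false, zero_mul, add_zero, hang, hbr]
      rw [exp_arctan hne]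
      rfl

/-- The winding number of the phase at an end. -/
def winding (e : Fin N) : ℤ := if e.val = 0 then -((N : ℤ) - 1) else 1

theorem winding_odd (h : Ok N) (e : Fin N) : Odd (winding e + euler e) := by
  obtain ⟨a, ha⟩ := h.odd
  unfold winding euler
  split_ifs
  · exact ⟨-(a : ℤ), by rw [ha]; push_cast; ring⟩
  · exact ⟨0, by ring⟩

/-- The lift of the phase along an end. -/
def angleLift (e : Fin N) (q : E3) : ℝ :=
  (∑ i ∈ fins N, (angle e i (circlePt e q.1 q.2.2) + branch e i + mult e i * turn e q.2.2)) /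
    (2 * Real.pi)

theorem phase_end (h : Ok N) (e : Fin N) :
    ∃ (ang : E3 → ℝ) (m : ℤ), Odd (m + euler e) ∧ ContinuousOn ang collarSet ∧
      (∀ q ∈ collarSet, phase N (circlePt e q.1 q.2.2) =
        Complex.exp ((2 * Real.pi * ang q : ℝ) * Complex.I)) ∧
      ∀ q ∈ collarSet, ∀ i j : ℤ, ang (q + latShift i j) = ang q + ((m * j : ℤ) : ℝ) := by
  refine ⟨angleLift e, winding e, winding_odd h e, ?_, fun q hq => ?_, fun q _ i j => ?_⟩
  · intro q hq
    refine ContinuousAt.continuousWithinAt ?_
    have hzc := circlePt_mem_cut h e (Ioo_subset_Icc_self hq) q.2.2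
    have hz : ContinuousAt (fun q : E3 => circlePt e q.1 q.2.2) q := by
      obtain ⟨D, hD, -⟩ := hasFDerivAt_circlePt h e hq.2.le
      exact hD.continuousAt
    unfold angleLift
    refine ContinuousAt.div_const ?_ _
    refine tendsto_finsetSum _ fun i hi => ?_
    have hc : ContinuousAt (angle e i) (circlePt e q.1 q.2.2) :=
      ((contDiffAt_angle (m := (0 : WithTop ℕ∞)) (e := e) (i := i) hzc)).continuousAt
    have hcomp : ContinuousAt (fun q : E3 => angle e i (circlePt e q.1 q.2.2)) q :=
      ContinuousAt.comp_of_eq (f := fun q : E3 => circlePt e q.1 q.2.2) hc hz rfl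
    have hturn : ContinuousAt (fun q : E3 => mult e i * turn e q.2.2) q := by
      unfold turn; fun_prop
    exact (hcomp.add continuousAt_const).add hturn
  · rw [show 2 * Real.pi * angleLift e q = ∑ i ∈ fins N, (angle e i (circlePt e q.1 q.2.2) +
      branch e i + mult e i * turn e q.2.2) by unfold angleLift; rw [mul_div_cancel₀ _ (by positivity)]]
    rw [Complex.ofReal_sum, Finset.sum_mul, Complex.exp_sum, phase]
    exact Finset.prod_congr rfl fun i hi =>
      dirTo_circlePt h (mem_fins.1 hi) (Ioo_subset_Icc_self hq) _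
  · simp only [angleLift, latShift, Prod.fst_add, Prod.snd_add, add_zero, circlePt_periodic]
    have hm : ((winding e : ℤ) : ℝ) = sgn e * ∑ i ∈ fins N, mult e i := by
      rw [sum_mult h]
      unfold winding sgn
      split_ifs <;> push_cast <;> ring
    have h2 : ∑ x ∈ fins N, (angle e x (circlePt e q.1 q.2.2) + branch e x +
        mult e x * turn e (q.2.2 + (j : ℝ))) =
        (∑ x ∈ fins N, (angle e x (circlePt e q.1 q.2.2) + branch e x + mult e x * turn e q.2.2)) +
          (sgn e * ∑ x ∈ fins N, mult e x) * (2 * Real.pi * j) := by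
      rw [mul_comm (sgn e), Finset.sum_mul, Finset.sum_mul, ← Finset.sum_add_distrib]
      refine Finset.sum_congr rfl fun x _ => ?_
      unfold turn
      ring
    rw [h2]
    push_cast
    rw [hm, add_div, add_right_inj]
    field_simp

end

end Vale.Agent.P255.Build
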