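import Vale.Agent.P255.Piece.Metric

/-!
Branches of the angles around the punctures, in the end zones and near a point.
-/

open Set Filter
open scoped ContDiff Topology

namespace Vale.Agent.P255.Build

noncomputable section

variable {N : ℕ}

/-- Whether the angle around `i` winds in the zone of `e`. -/
def mult (e i : Fin N) : ℝ := if e.val = 0 ∨ i = e then 1 else 0

/-- The angle around the puncture `i` less its winding part, in the zone of `e`. -/
def angle (e i : Fin N) (z : ℝ × ℝ) : ℝ :=
  if e.val = 0 then Real.arctan (ctr i * z.2 / (qd e z - ctr i * z.1))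
  else if i = e then 0 else Real.arctan (z.2 / (z.1 - ctr i))

/-- The primitive of the exact part of the connection form in the zone of `e`. -/
def primitive (e : Fin N) (z : ℝ × ℝ) : ℝ :=
  (eps N / (2 * Real.pi)) * ∑ i ∈ fins N, angle e i z

theorem hasFDerivAt_arctan_div {A B : ℝ × ℝ → ℝ} {A' B' L : ℝ × ℝ →L[ℝ] ℝ} {z : ℝ × ℝ}
    (hA : HasFDerivAt A A' z) (hB : HasFDerivAt B B' z) (h0 : A z ≠ 0)
    (hL : ∀ v, (A z * B' v - B z * A' v) / (A z ^ 2 + B z ^ 2) = L v) :
    HasFDerivAt (fun w => Real.arctan (B w / A w)) L z := by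
  have hi : HasFDerivAt (fun w => (A w)⁻¹) ((-(A z ^ 2)⁻¹) • A') z :=
    (hasDerivAt_inv h0).comp_hasFDerivAt z hA
  have hd : HasFDerivAt (fun w => B w / A w) (B z • ((-(A z ^ 2)⁻¹) • A') + (A z)⁻¹ • B') z := by
    simp only [div_eq_mul_inv]
    exact hB.fun_mul hi
  refine ((Real.hasDerivAt_arctan _).comp_hasFDerivAt z hd).congr_fderiv ?_
  refine ContinuousLinearMap.ext fun v => ?_
  rw [← hL v]
  have h2 : A z ^ 2 + B z ^ 2 ≠ 0 := by positivity
  simp only [FunLike.coe_smul, FunLike.coe_add, Pi.smul_apply, Pi.add_apply, smul_eq_mul]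
  field_simp
  ring

theorem zone_re_ne {e i : Fin N} (he : e.val ≠ 0) (hi : i ≠ e) {z : ℝ × ℝ}
    (hz : z ∈ zone e (cut e + Real.log 2)) : z.1 - ctr i ≠ 0 := by
  intro h0
  have h1 := zone_finite he hz
  have hd : 1 ≤ |ctr e - ctr i| := by
    have : (1 : ℤ) ≤ |(e.val : ℤ) - i.val| := by
      refine Int.one_le_abs (sub_ne_zero.2 fun hh => hi (Fin.ext ?_))
      omega
    unfold ctr
    exact_mod_cast this
  simp only [qd] at h1
  have : z.1 = ctr i := by linarith
  rw [this] at h1
  have h2 : 1 ≤ |ctr e - ctr i| * |ctr e - ctr i| := one_le_mul_of_one_le_of_one_le hd hd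
  rw [← pow_two, sq_abs] at h2
  nlinarith [sq_nonneg z.2]

theorem zone_outer_re_pos {e i : Fin N} (he : e.val = 0) {z : ℝ × ℝ}
    (hz : z ∈ zone e (cut e + Real.log 2)) : 0 < qd e z - ctr i * z.1 := by
  have h1 := zone_outer he hz
  have hiN : ctr i ≤ N := by unfold ctr; exact_mod_cast i.isLt.le
  have hi0 : 0 ≤ ctr i := Nat.cast_nonneg _
  have hc : ctr e = 0 := by simp [ctr, he]
  have hq : qd e z = z.1 ^ 2 + z.2 ^ 2 := by simp [qd, hc]
  rw [hq] at h1 ⊢
  nlinarith [sq_nonneg (z.1 - ctr i), mul_le_mul hiN hiN hi0 (Nat.cast_nonneg N)]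

theorem hasFDerivAt_angle {e i : Fin N} (hi : i.val ≠ 0) {z : ℝ × ℝ}
    (hz : z ∈ zone e (cut e + Real.log 2)) :
    HasFDerivAt (angle e i) (dang i z - mult e i • dang e z) z := by
  have hfst := hasFDerivAt_fst (𝕜 := ℝ) (p := z)
  have hsnd := hasFDerivAt_snd (𝕜 := ℝ) (p := z)
  have hqi := (zone_qd_pos hi hz).ne'
  by_cases he : e.val = 0
  · have hq := hz.1.ne'
    have hA0 := (zone_outer_re_pos (i := i) he hz).ne'
    have hc : ctr e = 0 := by simp [ctr, he]
    have hqd : HasFDerivAt (qd e) (lin (2 * (z.1 - ctr e)) (2 * z.2)) z :=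
      ((hfst.sub_const (ctr e)).pow 2 |>.fun_add (hsnd.pow 2)).congr_fderiv (by ext v <;> simp)
    have hA : HasFDerivAt (fun w => qd e w - ctr i * w.1)
        (lin (2 * (z.1 - ctr e) - ctr i) (2 * z.2)) z :=
      (hqd.fun_sub (hfst.const_mul (ctr i))).congr_fderiv (by ext v <;> simp)
    have hB : HasFDerivAt (fun w : ℝ × ℝ => ctr i * w.2) (lin 0 (ctr i)) z :=
      (hsnd.const_mul (ctr i)).congr_fderiv (by ext v <;> simp)
    rw [show angle e i = fun w => Real.arctan (ctr i * w.2 / (qd e w - ctr i * w.1)) from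
      funext fun w => if_pos he]
    refine hasFDerivAt_arctan_div hA hB hA0 fun v => ?_
    simp only [mult, he, true_or, if_true, dang, one_smul, FunLike.coe_sub, Pi.sub_apply, lin_apply]
    have hd : (qd e z - ctr i * z.1) ^ 2 + (ctr i * z.2) ^ 2 = qd e z * qd i z := by
      simp only [qd, hc]; ring
    rw [hd]
    field_simp
    simp only [qd, hc]
    ring
  · rcases eq_or_ne i e with rfl | hie
    · rw [show angle i i = fun _ => (0 : ℝ) from funext fun w => by simp [angle, he]]
      exact (hasFDerivAt_const _ _).congr_fderiv (by simp [mult])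
    · rw [show angle e i = fun w => Real.arctan (w.2 / (w.1 - ctr i)) from
        funext fun w => by simp [angle, he, hie]]
      refine hasFDerivAt_arctan_div (hfst.sub_const (ctr i)) hsnd (zone_re_ne he hie hz) fun v => ?_
      simp only [mult, he, hie, or_self, ↓reduceIte, zero_smul, sub_zero, dang, lin_apply,
        ContinuousLinearMap.coe_fst', ContinuousLinearMap.coe_snd']
      have hd : (z.1 - ctr i) ^ 2 + z.2 ^ 2 = qd i z := rfl
      rw [hd]
      ring

theorem sum_mult (h : Ok N) (e : Fin N) :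
    ∑ i ∈ fins N, mult e i = if e.val = 0 then (N : ℝ) - 1 else 1 := by
  by_cases he : e.val = 0
  · simp [mult, he, card_fins h]
  · rw [if_neg he, Finset.sum_eq_single e (fun i _ hi => by simp [mult, he, hi])
      (fun hn => absurd (mem_fins.2 he) hn)]
    simp [mult]

theorem period_eq (h : Ok N) (e : Fin N) :
    eps N * (∑ i ∈ fins N, mult e i) * sgn e = eps N - (euler e : ℝ) := by
  have hN : (N : ℝ) ≠ 0 := by
    have := h.five
    exact_mod_cast (show N ≠ 0 by omega)
  rw [sum_mult h]
  unfold sgn euler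
  split_ifs with he
  · simp only [eps]
    push_cast
    field_simp
    ring
  · simp

theorem hasFDerivAt_primitive {e : Fin N} {z : ℝ × ℝ} (hz : z ∈ zone e (cut e + Real.log 2)) :
    HasFDerivAt (primitive e)
      (om N z - (eps N / (2 * Real.pi) * ∑ i ∈ fins N, mult e i) • dang e z) z := by
  refine ((HasFDerivAt.fun_sum fun i hi => hasFDerivAt_angle (mem_fins.1 hi) hz).const_mul
    (eps N / (2 * Real.pi))).congr_fderiv ?_
  rw [Finset.sum_sub_distrib, smul_sub, om, ← Finset.sum_smul, smul_smul]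

theorem contDiffAt_angle {m : WithTop ℕ∞} {e i : Fin N} {z : ℝ × ℝ}
    (hz : z ∈ zone e (cut e + Real.log 2)) : ContDiffAt ℝ m (angle e i) z := by
  by_cases he : e.val = 0
  · rw [show angle e i = fun w => Real.arctan (ctr i * w.2 / (qd e w - ctr i * w.1)) from
      funext fun w => if_pos he]
    have h1 : ContDiffAt ℝ m (qd e) z := by unfold qd; fun_prop
    exact Real.contDiff_arctan.contDiffAt.comp z ((contDiffAt_const.mul contDiffAt_snd).div
      (h1.sub (contDiffAt_const.mul contDiffAt_fst)) (zone_outer_re_pos (i := i) he hz).ne')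
  · rcases eq_or_ne i e with rfl | hie
    · rw [show angle i i = fun _ => (0 : ℝ) from funext fun w => by simp [angle, he]]
      exact contDiffAt_const
    · rw [show angle e i = fun w => Real.arctan (w.2 / (w.1 - ctr i)) from
        funext fun w => by simp [angle, he, hie]]
      exact Real.contDiff_arctan.contDiffAt.comp z
        (contDiffAt_snd.div (contDiffAt_fst.sub contDiffAt_const) (zone_re_ne he hie hz))

theorem contDiffAt_primitive {m : WithTop ℕ∞} {e : Fin N} {z : ℝ × ℝ}
    (hz : z ∈ zone e (cut e + Real.log 2)) : ContDiffAt ℝ m (primitive e) z :=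
  contDiffAt_const.mul (ContDiffAt.sum fun _ _ => contDiffAt_angle hz)

/-- Near any point of the domain the connection form is exact. -/
theorem exists_local_primitive (h : Ok N) {z₀ : ℝ × ℝ} (hz : z₀ ∈ dom N) :
    ∃ (U : Set (ℝ × ℝ)) (F : ℝ × ℝ → ℝ), IsOpen U ∧ z₀ ∈ U ∧ U ⊆ dom N ∧
      ContDiffOn ℝ ∞ F U ∧ ∀ z ∈ U, HasFDerivAt F (om N z) z := by
  set A : Fin N → ℝ × ℝ → ℝ := fun i w =>
    (z₀.1 - ctr i) * (w.1 - ctr i) + z₀.2 * w.2
  set B : Fin N → ℝ × ℝ → ℝ := fun i w =>
    (z₀.1 - ctr i) * w.2 - z₀.2 * (w.1 - ctr i)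
  refine ⟨dom N ∩ ⋂ i ∈ fins N, {w | 0 < A i w},
    fun w => (eps N / (2 * Real.pi)) * ∑ i ∈ fins N, Real.arctan (B i w / A i w), ?_, ⟨hz, ?_⟩,
    inter_subset_left, ?_, ?_⟩
  · refine isOpen_dom.inter (isOpen_biInter_finset fun i _ => isOpen_lt continuous_const ?_)
    simp only [A]; fun_prop
  · simp only [mem_iInter]
    intro i hi
    have := ((mem_dom_iff h).1 hz).1 i (mem_fins.1 hi)
    simp only [qd, sq] at this
    simpa [A] using this
  · intro w hw
    refine (contDiffAt_const.mul (ContDiffAt.sum fun i hi => ?_)).contDiffWithinAt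
    have hA : 0 < A i w := by
      have := hw.2
      simp only [mem_iInter] at this
      exact this i hi
    refine Real.contDiff_arctan.contDiffAt.comp w (ContDiffAt.div ?_ ?_ hA.ne') <;>
      simp only [A, B] <;> fun_prop
  · intro w hw
    refine ((HasFDerivAt.fun_sum (A' := fun i => dang i w) fun i hi => ?_).const_mul
      (eps N / (2 * Real.pi))).congr_fderiv (by rw [om])
    have hA : 0 < A i w := by
      have := hw.2
      simp only [mem_iInter] at this
      exact this i hi
    have hfst := hasFDerivAt_fst (𝕜 := ℝ) (p := w)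
    have hsnd := hasFDerivAt_snd (𝕜 := ℝ) (p := w)
    have h1 : HasFDerivAt (A i) (lin (z₀.1 - ctr i) z₀.2) w :=
      (((hfst.sub_const (ctr i)).const_mul (z₀.1 - ctr i)).fun_add
        (hsnd.const_mul z₀.2)).congr_fderiv (by ext v <;> simp)
    have h2 : HasFDerivAt (B i) (lin (-z₀.2) (z₀.1 - ctr i)) w :=
      ((hsnd.const_mul (z₀.1 - ctr i)).fun_sub
        ((hfst.sub_const (ctr i)).const_mul z₀.2)).congr_fderiv (by ext v <;> simp)
    refine hasFDerivAt_arctan_div h1 h2 hA.ne' fun v => ?_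
    have hq0 := (((mem_dom_iff h).1 hz).1 i (mem_fins.1 hi)).ne'
    have hqw := (((mem_dom_iff h).1 hw.1).1 i (mem_fins.1 hi)).ne'
    have hd : A i w ^ 2 + B i w ^ 2 = qd i z₀ * qd i w := by
      simp only [A, B, qd]; ring
    rw [hd]
    simp only [dang, lin_apply, A, B]
    field_simp
    simp only [qd]
    ring

end

end Vale.Agent.P255.Build
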