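import Vale.Agent.P255.Defs
import Vale.Agent.P255.Space
import Vale.Agent.P216.Chord.Var

/-!
The product of a conformal planar metric with the line: nonpositive curvature when the conformal
exponent is subharmonic.
-/

open Set Filter
open scoped ContDiff Topology

namespace Vale.Agent.P255

set_option maxSynthPendingDepth 3

noncomputable section

/-- The linear form with coefficients `a`, `b` on the plane. -/
def lin (a b : ℝ) : ℝ × ℝ →L[ℝ] ℝ :=
  a • ContinuousLinearMap.fst ℝ ℝ ℝ + b • ContinuousLinearMap.snd ℝ ℝ ℝ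

@[simp] theorem lin_apply (a b : ℝ) (v : ℝ × ℝ) : lin a b v = a * v.1 + b * v.2 := rfl

/-- The projection to the plane. -/
def planeProj : E3 →L[ℝ] ℝ × ℝ :=
  (ContinuousLinearMap.fst ℝ ℝ (ℝ × ℝ)).prod
    ((ContinuousLinearMap.fst ℝ ℝ ℝ).comp (ContinuousLinearMap.snd ℝ ℝ (ℝ × ℝ)))

@[simp] theorem planeProj_apply (y : E3) : planeProj y = (y.1, y.2.1) := rfl

/-- The third coordinate. -/
def fibreProj : E3 →L[ℝ] ℝ :=
  (ContinuousLinearMap.snd ℝ ℝ ℝ).comp (ContinuousLinearMap.snd ℝ ℝ (ℝ × ℝ))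

@[simp] theorem fibreProj_apply (y : E3) : fibreProj y = y.2.2 := rfl

/-- The second derivatives of `u` at `z` are `hxx`, `hxy`, `hyy`. -/
def HasHess (u a b : ℝ × ℝ → ℝ) (z : ℝ × ℝ) (hxx hxy hyy : ℝ) : Prop :=
  (∀ᶠ z' in 𝓝 z, HasFDerivAt u (lin (a z') (b z')) z') ∧
    HasFDerivAt a (lin hxx hxy) z ∧ HasFDerivAt b (lin hxy hyy) z

/-- `u` has a Laplacian equal to `L` at `z`. -/
def HasLap (u : ℝ × ℝ → ℝ) (z : ℝ × ℝ) (L : ℝ) : Prop :=
  ∃ a b hxx hxy hyy, HasHess u a b z hxx hxy hyy ∧ hxx + hyy = L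

theorem HasLap.congr {u v : ℝ × ℝ → ℝ} {z : ℝ × ℝ} {L : ℝ} (h : HasLap u z L)
    (he : v =ᶠ[𝓝 z] u) : HasLap v z L := by
  obtain ⟨a, b, hxx, hxy, hyy, ⟨h1, h2, h3⟩, hL⟩ := h
  refine ⟨a, b, hxx, hxy, hyy, ⟨?_, h2, h3⟩, hL⟩
  filter_upwards [h1, he.eventuallyEq_nhds] with z' hz' hz2
  exact hz'.congr_of_eventuallyEq hz2

theorem hasLap_const (c : ℝ) (z : ℝ × ℝ) : HasLap (fun _ => c) z 0 := by
  refine ⟨fun _ => 0, fun _ => 0, 0, 0, 0, ⟨Eventually.of_forall fun z' => ?_, ?_, ?_⟩, add_zero 0⟩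
  all_goals exact (hasFDerivAt_const _ _).congr_fderiv (by ext v <;> simp)

theorem HasLap.add {u v : ℝ × ℝ → ℝ} {z : ℝ × ℝ} {L L' : ℝ} (h : HasLap u z L)
    (h' : HasLap v z L') : HasLap (fun x => u x + v x) z (L + L') := by
  obtain ⟨a, b, hxx, hxy, hyy, ⟨h1, h2, h3⟩, hL⟩ := h
  obtain ⟨a', b', gxx, gxy, gyy, ⟨g1, g2, g3⟩, gL⟩ := h'
  refine ⟨fun x => a x + a' x, fun x => b x + b' x, hxx + gxx, hxy + gxy, hyy + gyy,
    ⟨?_, ?_, ?_⟩, by linarith⟩
  · filter_upwards [h1, g1] with z' e1 e2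
    exact (e1.fun_add e2).congr_fderiv (by ext v <;> simp)
  · exact (h2.fun_add g2).congr_fderiv (by ext v <;> simp)
  · exact (h3.fun_add g3).congr_fderiv (by ext v <;> simp)

theorem HasLap.const_mul {u : ℝ × ℝ → ℝ} {z : ℝ × ℝ} {L : ℝ} (c : ℝ) (h : HasLap u z L) :
    HasLap (fun x => c * u x) z (c * L) := by
  obtain ⟨a, b, hxx, hxy, hyy, ⟨h1, h2, h3⟩, hL⟩ := h
  refine ⟨fun x => c * a x, fun x => c * b x, c * hxx, c * hxy, c * hyy, ⟨?_, ?_, ?_⟩,
    by rw [← hL]; ring⟩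
  · filter_upwards [h1] with z' e1
    exact (e1.const_mul c).congr_fderiv (by ext v <;> simp)
  · exact (h2.const_mul c).congr_fderiv (by ext v <;> simp)
  · exact (h3.const_mul c).congr_fderiv (by ext v <;> simp)

theorem hasLap_sum {ι : Type*} (s : Finset ι) {u : ι → ℝ × ℝ → ℝ} {z : ℝ × ℝ}
    (h : ∀ i ∈ s, HasLap (u i) z 0) : HasLap (fun x => ∑ i ∈ s, u i x) z 0 := by
  classical
  induction s using Finset.induction_on with
  | empty => simpa using hasLap_const 0 z
  | insert i t hi ih =>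
    simpa [Finset.sum_insert hi] using (h i (Finset.mem_insert_self i t)).add
      (ih fun j hj => h j (Finset.mem_insert_of_mem hj))

/-- A convex increasing function of a harmonic function is subharmonic. -/
theorem HasLap.convex_comp {u : ℝ × ℝ → ℝ} {z : ℝ × ℝ} (h : HasLap u z 0) {f f' f'' : ℝ → ℝ}
    (hf : ∀ x, HasDerivAt f (f' x) x) (hf' : HasDerivAt f' (f'' (u z)) (u z))
    (hpos : 0 ≤ f'' (u z)) : ∃ L, 0 ≤ L ∧ HasLap (fun x => f (u x)) z L := by
  obtain ⟨a, b, hxx, hxy, hyy, ⟨h1, h2, h3⟩, hL⟩ := h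
  have hu : HasFDerivAt u (lin (a z) (b z)) z := h1.self_of_nhds
  have hF : HasFDerivAt (fun x => f' (u x)) (f'' (u z) • lin (a z) (b z)) z :=
    hf'.comp_hasFDerivAt z hu
  refine ⟨f'' (u z) * (a z ^ 2 + b z ^ 2), by positivity,
    fun x => f' (u x) * a x, fun x => f' (u x) * b x,
    f'' (u z) * a z ^ 2 + f' (u z) * hxx, f'' (u z) * a z * b z + f' (u z) * hxy,
    f'' (u z) * b z ^ 2 + f' (u z) * hyy, ⟨?_, ?_, ?_⟩, by linear_combination f' (u z) * hL⟩
  · filter_upwards [h1] with z' e1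
    exact ((hf (u z')).comp_hasFDerivAt z' e1).congr_fderiv (by ext v <;> simp)
  · exact (hF.fun_mul h2).congr_fderiv (by ext v <;> simp <;> ring)
  · exact (hF.fun_mul h3).congr_fderiv (by ext v <;> simp <;> ring)

/-- The product metric with conformal exponent `u`. -/
def confMetric (u : ℝ × ℝ → ℝ) (y : E3) : E3 →L[ℝ] E3 →L[ℝ] ℝ :=
  Real.exp (2 * u (planeProj y)) •
      ((ContinuousLinearMap.fst ℝ ℝ (ℝ × ℝ)).smulRight (ContinuousLinearMap.fst ℝ ℝ (ℝ × ℝ)) +
        ((ContinuousLinearMap.fst ℝ ℝ ℝ).comp (ContinuousLinearMap.snd ℝ ℝ (ℝ × ℝ))).smulRight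
          ((ContinuousLinearMap.fst ℝ ℝ ℝ).comp (ContinuousLinearMap.snd ℝ ℝ (ℝ × ℝ)))) +
    fibreProj.smulRight fibreProj

theorem confMetric_apply (u : ℝ × ℝ → ℝ) (y v w : E3) :
    confMetric u y v w =
      Real.exp (2 * u (y.1, y.2.1)) * (v.1 * w.1 + v.2.1 * w.2.1) + v.2.2 * w.2.2 := by
  simp [confMetric]
  ring

theorem isMetricOn_confMetric {U : Set (ℝ × ℝ)} (hU : IsOpen U) {u : ℝ × ℝ → ℝ}
    (hu : ContDiffOn ℝ ∞ u U) :
    P216.Chord.IsMetricOn (planeProj ⁻¹' U) (confMetric u) where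
  isOpen := hU.preimage planeProj.continuous
  smooth := by
    have h1 : ContDiffOn ℝ ∞ (fun y : E3 => u (planeProj y)) (planeProj ⁻¹' U) :=
      hu.comp planeProj.contDiff.contDiffOn (mapsTo_preimage _ _)
    exact ((contDiffOn_const.mul h1).exp.smul contDiffOn_const).add contDiffOn_const
  symm y _ v w := by simp only [confMetric_apply]; ring
  pos y _ v hv := by
    rw [confMetric_apply]
    have he := Real.exp_pos (2 * u (y.1, y.2.1))
    by_cases h : v.2.2 = 0
    · have : 0 < v.1 * v.1 + v.2.1 * v.2.1 := by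
        by_contra hc
        have h1 : v.1 = 0 := by nlinarith
        have h2 : v.2.1 = 0 := by nlinarith
        exact hv (Prod.ext h1 (Prod.ext h2 h))
      nlinarith
    · have : 0 < v.2.2 * v.2.2 := mul_self_pos.2 h
      nlinarith [mul_nonneg he.le (add_nonneg (mul_self_nonneg v.1) (mul_self_nonneg v.2.1))]

/-- The Christoffel symbol of the product metric. -/
def confGamma (a b : ℝ) (v w : E3) : E3 :=
  (a * (v.1 * w.1 - v.2.1 * w.2.1) + b * (v.1 * w.2.1 + v.2.1 * w.1),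
    b * (v.2.1 * w.2.1 - v.1 * w.1) + a * (v.1 * w.2.1 + v.2.1 * w.1), 0)

theorem christoffel_confMetric {U : Set (ℝ × ℝ)} (hU : IsOpen U) {u : ℝ × ℝ → ℝ}
    (hu : ContDiffOn ℝ ∞ u U) {y : E3} (hy : planeProj y ∈ U) {a b : ℝ}
    (hd : HasFDerivAt u (lin a b) (planeProj y)) (v w : E3) :
    christoffel (confMetric u) y v w = confGamma a b v w := by
  have hG := isMetricOn_confMetric hU hu
  set W := Real.exp (2 * u (planeProj y))
  have h1 : HasFDerivAt (fun y : E3 => Real.exp (2 * u (planeProj y)))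
      ((W * 2) • (lin a b).comp planeProj) y := by
    exact (((hd.comp y planeProj.hasFDerivAt).const_mul 2).exp).congr_fderiv (by ext x <;> simp [W] <;> ring)
  have h2 : ∀ h p r : E3, fderiv ℝ (confMetric u) y h p r =
      W * 2 * (a * h.1 + b * h.2.1) * (p.1 * r.1 + p.2.1 * r.2.1) := by
    intro h p r
    have h3 := (h1.smul_const
      ((ContinuousLinearMap.fst ℝ ℝ (ℝ × ℝ)).smulRight (ContinuousLinearMap.fst ℝ ℝ (ℝ × ℝ)) +
        ((ContinuousLinearMap.fst ℝ ℝ ℝ).comp (ContinuousLinearMap.snd ℝ ℝ (ℝ × ℝ))).smulRight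
          ((ContinuousLinearMap.fst ℝ ℝ ℝ).comp (ContinuousLinearMap.snd ℝ ℝ (ℝ × ℝ))))).add_const
      (fibreProj.smulRight fibreProj)
    have h4 : fderiv ℝ (confMetric u) y = _ := h3.fderiv
    rw [h4]
    simp
    ring
  have key : (1 / 2 : ℝ) • (fderiv ℝ (confMetric u) y v w + fderiv ℝ (confMetric u) y w v -
      ((fderiv ℝ (confMetric u) y).flip v).flip w) = confMetric u y (confGamma a b v w) := by
    refine ContinuousLinearMap.ext fun x => ?_
    simp only [smul_eq_mul, FunLike.coe_sub, FunLike.coe_add, FunLike.coe_smul, Pi.sub_apply,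
      Pi.add_apply, Pi.smul_apply, ContinuousLinearMap.flip_apply, h2, confMetric_apply,
      confGamma, planeProj_apply, W]
    ring
  rw [christoffel, key]
  exact hG.vel_eq hy

/-- A subharmonic exponent gives nonpositive curvature. -/
theorem curvature_confMetric_nonpos {U : Set (ℝ × ℝ)} (hU : IsOpen U) {u : ℝ × ℝ → ℝ}
    (hu : ContDiffOn ℝ ∞ u U) {y : E3} (hy : planeProj y ∈ U) {L : ℝ}
    (hL : HasLap u (planeProj y) L) (hpos : 0 ≤ L) (p r : E3) :
    confMetric u y (curvature (confMetric u) y p r r) p ≤ 0 := by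
  obtain ⟨a, b, hxx, hxy, hyy, ⟨h1, h2, h3⟩, hsum⟩ := hL
  have hev : ∀ v w, (fun y' => christoffel (confMetric u) y' v w) =ᶠ[𝓝 y]
      fun y' => confGamma (a (planeProj y')) (b (planeProj y')) v w := fun v w => by
    filter_upwards [planeProj.continuous.continuousAt.eventually h1,
      (hU.preimage planeProj.continuous).mem_nhds hy] with y' e1 e2
    exact christoffel_confMetric hU hu e2 e1 v w
  have hder : ∀ v w h, fderiv ℝ (fun y' => christoffel (confMetric u) y' v w) y h =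
      confGamma (hxx * h.1 + hxy * h.2.1) (hxy * h.1 + hyy * h.2.1) v w := fun v w h => by
    have d2 : HasFDerivAt (fun y' : E3 => a (planeProj y')) ((lin hxx hxy).comp planeProj) y :=
      h2.comp y planeProj.hasFDerivAt
    have d3 : HasFDerivAt (fun y' : E3 => b (planeProj y')) ((lin hxy hyy).comp planeProj) y :=
      h3.comp y planeProj.hasFDerivAt
    have d := ((d2.mul_const (v.1 * w.1 - v.2.1 * w.2.1)).fun_add
      (d3.mul_const (v.1 * w.2.1 + v.2.1 * w.1))).prodMk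
      (((d3.mul_const (v.2.1 * w.2.1 - v.1 * w.1)).fun_add
        (d2.mul_const (v.1 * w.2.1 + v.2.1 * w.1))).prodMk (hasFDerivAt_const (0 : ℝ) y))
    rw [(hev v w).fderiv_eq]
    have h4 : fderiv ℝ (fun y' => confGamma (a (planeProj y')) (b (planeProj y')) v w) y = _ :=
      d.fderiv
    rw [h4]
    simp [confGamma]
    constructor <;> ring
  have hz : ∀ v w, christoffel (confMetric u) y v w =
      confGamma (a (planeProj y)) (b (planeProj y)) v w := fun v w => (hev v w).self_of_nhds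
  have key : confMetric u y (curvature (confMetric u) y p r r) p =
      -(hxx + hyy) * (Real.exp (2 * u (y.1, y.2.1)) * (p.1 * r.2.1 - p.2.1 * r.1) ^ 2) := by
    simp only [curvature, hder, hz, confMetric_apply, confGamma, Prod.fst_sub, Prod.fst_add,
      Prod.snd_sub, Prod.snd_add]
    ring
  rw [key, hsum]
  exact mul_nonpos_of_nonpos_of_nonneg (neg_nonpos.2 hpos) (by positivity)

end

end Vale.Agent.P255
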