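import Mathlib

/-!
A smooth convex function vanishing on the negative axis and affine of slope one after one.
-/

open MeasureTheory
open scoped ContDiff Topology

namespace Vale.Agent.P255

noncomputable section

/-- The convex cutoff. -/
def psi (x : ℝ) : ℝ := ∫ s in (0 : ℝ)..x, Real.smoothTransition s

/-- Its defect. -/
def psiShift : ℝ := 1 - psi 1

theorem hasDerivAt_psi (x : ℝ) : HasDerivAt psi (Real.smoothTransition x) x :=
  intervalIntegral.integral_hasDerivAt_right (Real.smoothTransition.continuous.intervalIntegrable _ _)
    (Real.smoothTransition.continuous.stronglyMeasurableAtFilter _ _)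
    Real.smoothTransition.continuous.continuousAt

theorem psi_of_nonpos {x : ℝ} (hx : x ≤ 0) : psi x = 0 := by
  unfold psi
  rw [intervalIntegral.integral_congr (g := fun _ => (0 : ℝ)) fun s hs => ?_]
  · simp
  · rw [Set.uIcc_of_ge hx] at hs
    exact Real.smoothTransition.zero_of_nonpos hs.2

theorem psi_of_one_le {x : ℝ} (hx : 1 ≤ x) : psi x = x - psiShift := by
  have h := intervalIntegral.integral_add_adjacent_intervals (a := (0 : ℝ)) (b := 1) (c := x)
    (f := Real.smoothTransition) (μ := volume)
    (Real.smoothTransition.continuous.intervalIntegrable _ _)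
    (Real.smoothTransition.continuous.intervalIntegrable _ _)
  have h2 : ∫ s in (1 : ℝ)..x, Real.smoothTransition s = x - 1 := by
    rw [intervalIntegral.integral_congr (g := fun _ => (1 : ℝ)) fun s hs => ?_]
    · simp
    · rw [Set.uIcc_of_le hx] at hs
      exact Real.smoothTransition.one_of_one_le hs.1
  simp only [psiShift, psi, ← h, h2]
  ring

theorem contDiff_psi : ContDiff ℝ ∞ psi := by
  rw [contDiff_infty_iff_deriv]
  refine ⟨fun x => (hasDerivAt_psi x).differentiableAt, ?_⟩
  rw [show deriv psi = Real.smoothTransition from funext fun x => (hasDerivAt_psi x).deriv]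
  exact Real.smoothTransition.contDiff

theorem deriv_smoothTransition_nonneg (x : ℝ) : 0 ≤ deriv Real.smoothTransition x :=
  Real.smoothTransition.monotone.deriv_nonneg

end

end Vale.Agent.P255
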