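import Vale.Agent.P255.Collar
import Vale.Agent.P255.PieceDefs
import Vale.Agent.P255.Piece.Cutoff

/-!
Constants, centres, depths and regions of the ends of the piece.
-/

open Set Filter
open scoped ContDiff Topology

namespace Vale.Agent.P255.Build

noncomputable section

/-- The hypotheses on the number of ends. -/
structure Ok (N : ℕ) : Prop where
  five : 5 ≤ N
  odd : Odd N
  good : CollarGood N

variable {N : ℕ}

/-- The centre of an end: `(e, 0)`; the outer end `0` is centred at the origin. -/
def ctr (e : Fin N) : ℝ := e.val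

/-- The sign of an end: `-1` for the outer end. -/
def sgn (e : Fin N) : ℝ := if e.val = 0 then -1 else 1

/-- The ends around the punctures. -/
def fins (N : ℕ) : Finset (Fin N) := Finset.univ.filter fun e => e.val ≠ 0

/-- The squared distance to a centre. -/
def qd (e : Fin N) (z : ℝ × ℝ) : ℝ := (z.1 - ctr e) ^ 2 + z.2 ^ 2

/-- The logarithm of the distance to a centre. -/
def lg (e : Fin N) (z : ℝ × ℝ) : ℝ := Real.log (qd e z) / 2

/-- The depth towards an end: it tends to minus infinity at the end. -/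
def dep (e : Fin N) (z : ℝ × ℝ) : ℝ := sgn e * lg e z

/-- The slope of the warping function at its linear part. -/
def slope (N : ℕ) : ℝ := deriv (warp N) 4

/-- The value of the warping function at the start of its linear part. -/
def wval (N : ℕ) : ℝ := warp N 4

/-- The ratio between circumference over `2π` and warping function. -/
def ratio (N : ℕ) : ℝ := (1 + eps N ^ 2) / (2 * Real.pi)

/-- The cone parameter. -/
def kap (N : ℕ) : ℝ := ratio N * slope N

/-- The circumference over `2π` at height `t`, on the linear part. -/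
def lev (N : ℕ) (t : ℝ) : ℝ := ratio N * (wval N + slope N * (-3 - t))

/-- The depth near which the potential changes. -/
def cut (e : Fin N) : ℝ := if e.val = 0 then -Real.log (4 * N) else -Real.log 4

/-- The growth of the transition function. -/
def grow (e : Fin N) : ℝ :=
  if e.val = 0 then (1 - 2 * kap N) * (N - 1) - 1 - kap N else kap N

/-- A bound on the smooth part of the transition function. -/
def bound (N : ℕ) : ℝ := N * Real.log (2 * N)

/-- The additive constant of the exponent at an end. -/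
def cst (e : Fin N) : ℝ := grow e * (cut e - Real.log 2) - bound N

/-- Below this depth the exponent is exactly conical. -/
def deep (e : Fin N) : ℝ := cut e - Real.log 2 - (2 * bound N + 1) / grow e

/-- The global additive constant of the exponent. -/
def shiftC (N : ℕ) : ℝ :=
  ∑ e : Fin N, |Real.log (lev N (-5)) - kap N * deep e - cst e + psiShift| + 1

/-- The logarithm of the cone constant. -/
def off (e : Fin N) : ℝ := cst e + shiftC N - psiShift

/-- The depth at height `t`. -/
def depAt (e : Fin N) (t : ℝ) : ℝ := (Real.log (lev N t) - off e) / kap N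

/-- The circumference over `2π` of the circle through `z`. -/
def circ (e : Fin N) (z : ℝ × ℝ) : ℝ := Real.exp (off e + kap N * dep e z)

/-- The height of a point of the cone. -/
def time (e : Fin N) (z : ℝ × ℝ) : ℝ := -3 - (circ e z / ratio N - wval N) / slope N

/-- The points beyond depth `a` at an end. -/
def zone (e : Fin N) (a : ℝ) : Set (ℝ × ℝ) := {z | 0 < qd e z ∧ dep e z < a}

/-- The planar domain. -/
def dom (N : ℕ) : Set (ℝ × ℝ) :=
  {z | ∀ e : Fin N, if e.val = 0 then qd e z < Real.exp (-2 * depAt e 5)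
    else Real.exp (2 * depAt e 5) < qd e z}

theorem mem_fins {e : Fin N} : e ∈ fins N ↔ e.val ≠ 0 := by simp [fins]

theorem card_fins (h : Ok N) : ((fins N).card : ℝ) = (N : ℝ) - 1 := by
  have h1 : fins N = Finset.univ.erase (⟨0, by have := h.five; omega⟩ : Fin N) := by
    ext e
    simp [fins, Fin.ext_iff]
  rw [h1, Finset.card_erase_of_mem (Finset.mem_univ _), Finset.card_univ, Fintype.card_fin,
    Nat.cast_sub (by have := h.five; omega)]
  simp

theorem slope_pos (h : Ok N) : 0 < slope N := h.good.warp_slope.1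

theorem slope_lt (h : Ok N) : slope N < 1 / 16 := h.good.warp_slope.2

theorem wval_gt (h : Ok N) : 1 / 2 < wval N := (h.good.warp_pos 4 (by norm_num)).1

theorem eps_sq_le (h : Ok N) : eps N ^ 2 ≤ 1 := by
  have h5 : (5 : ℝ) ≤ N := by exact_mod_cast h.five
  rw [eps, div_pow, one_pow, div_le_one (by positivity)]
  nlinarith

theorem ratio_pos : 0 < ratio N := div_pos (by positivity) (by positivity)

theorem kap_pos (h : Ok N) : 0 < kap N := mul_pos ratio_pos (slope_pos h)

theorem kap_lt (h : Ok N) : kap N < 1 / 8 := by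
  have h1 : ratio N ≤ 1 := by
    rw [ratio, div_le_one (by positivity)]
    linarith [eps_sq_le h, Real.pi_gt_three]
  calc kap N ≤ 1 * slope N := mul_le_mul_of_nonneg_right h1 (slope_pos h).le
    _ < 1 / 8 := by linarith [slope_lt h]

theorem lev_pos (h : Ok N) {t : ℝ} (ht : t ≤ 5) : 0 < lev N t := by
  refine mul_pos ratio_pos ?_
  have := mul_le_mul_of_nonneg_left (show -8 ≤ -3 - t by linarith) (slope_pos h).le
  linarith [wval_gt h, slope_lt h]

theorem grow_pos (h : Ok N) (e : Fin N) : 0 < grow e := by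
  unfold grow
  split_ifs
  · have h5 : (5 : ℝ) ≤ N := by exact_mod_cast h.five
    nlinarith [kap_lt h, kap_pos h]
  · exact kap_pos h

theorem bound_nonneg (h : Ok N) : 0 ≤ bound N := by
  have h5 : (5 : ℝ) ≤ N := by exact_mod_cast h.five
  exact mul_nonneg (by positivity) (Real.log_nonneg (by linarith))

theorem cut_neg (h : Ok N) (e : Fin N) : cut e + Real.log 2 < 0 := by
  have h5 : (5 : ℝ) ≤ N := by exact_mod_cast h.five
  unfold cut
  split_ifs
  · have := Real.log_lt_log two_pos (show (2 : ℝ) < 4 * N by linarith)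
    linarith
  · have := Real.log_lt_log two_pos (show (2 : ℝ) < 4 by norm_num)
    linarith

theorem deep_le (h : Ok N) (e : Fin N) : deep e ≤ cut e - Real.log 2 := by
  have := div_nonneg (show 0 ≤ 2 * bound N + 1 by linarith [bound_nonneg h]) (grow_pos h e).le
  unfold deep
  linarith

theorem deep_lt_cut (h : Ok N) (e : Fin N) : deep e < cut e := by
  linarith [deep_le h e, Real.log_pos (show (1 : ℝ) < 2 by norm_num)]

theorem depAt_lt (h : Ok N) (e : Fin N) {t t' : ℝ} (htt : t < t') (ht : t' ≤ 5) :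
    depAt e t' < depAt e t := by
  refine div_lt_div_of_pos_right (sub_lt_sub_right (Real.log_lt_log (lev_pos h ht) ?_) _)
    (kap_pos h)
  exact mul_lt_mul_of_pos_left (by nlinarith [slope_pos h]) ratio_pos

theorem depAt_deep (h : Ok N) (e : Fin N) : depAt e (-5) < deep e := by
  rw [depAt, div_lt_iff₀ (kap_pos h)]
  have h1 := Finset.single_le_sum
    (f := fun i : Fin N => |Real.log (lev N (-5)) - kap N * deep i - cst i + psiShift|)
    (fun i _ => abs_nonneg _) (Finset.mem_univ e)
  have := le_abs_self (Real.log (lev N (-5)) - kap N * deep e - cst e + psiShift)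
  simp only [off, shiftC]
  linarith

theorem depAt_lt_deep (h : Ok N) (e : Fin N) {t : ℝ} (ht : -5 ≤ t) (ht' : t ≤ 5) :
    depAt e t < deep e := by
  rcases ht.eq_or_lt with rfl | ht
  · exact depAt_deep h e
  · exact (depAt_lt h e ht ht').trans (depAt_deep h e)

theorem depAt_neg (h : Ok N) (e : Fin N) {t : ℝ} (ht : -5 ≤ t) (ht' : t ≤ 5) :
    depAt e t < 0 := by
  linarith [depAt_lt_deep h e ht ht', deep_lt_cut h e, cut_neg h e,
    Real.log_pos (show (1 : ℝ) < 2 by norm_num)]

theorem qd_nonneg (e : Fin N) (z : ℝ × ℝ) : 0 ≤ qd e z := by unfold qd; positivity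

theorem continuous_qd (e : Fin N) : Continuous (qd e) := by unfold qd; fun_prop

theorem dep_lt_iff {e : Fin N} {z : ℝ × ℝ} {a : ℝ} (hq : 0 < qd e z) :
    dep e z < a ↔ if e.val = 0 then Real.exp (-2 * a) < qd e z else qd e z < Real.exp (2 * a) := by
  unfold dep lg sgn
  split_ifs
  · rw [← Real.lt_log_iff_exp_lt hq]
    constructor <;> intro <;> linarith
  · rw [← Real.log_lt_iff_lt_exp hq]
    constructor <;> intro <;> linarith

theorem lt_dep_iff {e : Fin N} {z : ℝ × ℝ} {a : ℝ} (hq : 0 < qd e z) :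
    a < dep e z ↔ if e.val = 0 then qd e z < Real.exp (-2 * a) else Real.exp (2 * a) < qd e z := by
  unfold dep lg sgn
  split_ifs
  · rw [← Real.log_lt_iff_lt_exp hq]
    constructor <;> intro <;> linarith
  · rw [← Real.lt_log_iff_exp_lt hq]
    constructor <;> intro <;> linarith

theorem dep_le_iff {e : Fin N} {z : ℝ × ℝ} {a : ℝ} (hq : 0 < qd e z) :
    dep e z ≤ a ↔ if e.val = 0 then Real.exp (-2 * a) ≤ qd e z else qd e z ≤ Real.exp (2 * a) := by
  rw [← not_lt, lt_dep_iff hq]
  split_ifs <;> exact not_lt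

theorem isOpen_dom : IsOpen (dom N) := by
  simp only [dom, Set.ofPred_forall]
  refine isOpen_iInter_of_finite fun e => ?_
  split_ifs
  · exact isOpen_lt (continuous_qd e) continuous_const
  · exact isOpen_lt continuous_const (continuous_qd e)

theorem mem_dom_iff {z : ℝ × ℝ} (h : Ok N) :
    z ∈ dom N ↔ (∀ e : Fin N, e.val ≠ 0 → 0 < qd e z) ∧
      ∀ e : Fin N, 0 < qd e z → depAt e 5 < dep e z := by
  constructor
  · intro hz
    refine ⟨fun e he => ?_, fun e hq => (lt_dep_iff hq).2 (hz e)⟩
    have := hz e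
    rw [if_neg he] at this
    exact (Real.exp_pos _).trans this
  · rintro ⟨h1, h2⟩ e
    by_cases he : e.val = 0
    · rw [if_pos he]
      rcases (qd_nonneg e z).eq_or_lt with hq | hq
      · rw [← hq]; exact Real.exp_pos _
      · simpa [he] using (lt_dep_iff hq).1 (h2 e hq)
    · rw [if_neg he]
      simpa [he] using (lt_dep_iff (h1 e he)).1 (h2 e (h1 e he))

theorem isOpen_zone (e : Fin N) (a : ℝ) : IsOpen (zone e a) := by
  have h1 : zone e a = {z | 0 < qd e z} ∩
      {z | if e.val = 0 then Real.exp (-2 * a) < qd e z else qd e z < Real.exp (2 * a)} := by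
    ext z
    exact ⟨fun hz => ⟨hz.1, (dep_lt_iff hz.1).1 hz.2⟩, fun hz => ⟨hz.1, (dep_lt_iff hz.1).2 hz.2⟩⟩
  rw [h1]
  refine (isOpen_lt continuous_const (continuous_qd e)).inter ?_
  split_ifs
  · exact isOpen_lt continuous_const (continuous_qd e)
  · exact isOpen_lt (continuous_qd e) continuous_const

theorem zone_mono (e : Fin N) {a b : ℝ} (hab : a ≤ b) : zone e a ⊆ zone e b :=
  fun _ hz => ⟨hz.1, hz.2.trans_le hab⟩

theorem cut_zero {e : Fin N} (he : e.val = 0) : cut e = -Real.log (4 * N) := if_pos he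

theorem zone_finite {e : Fin N} (he : e.val ≠ 0) {z : ℝ × ℝ}
    (hz : z ∈ zone e (cut e + Real.log 2)) : qd e z < 1 / 4 := by
  have h1 := (dep_lt_iff hz.1).1 hz.2
  rw [if_neg he] at h1
  refine h1.trans_le (le_of_eq ?_)
  rw [cut, if_neg he, show 2 * (-Real.log 4 + Real.log 2) = -(2 * Real.log 2) by
    rw [show (4 : ℝ) = 2 * 2 by norm_num, Real.log_mul (by norm_num) (by norm_num)]; ring,
    Real.exp_neg, show (2 : ℝ) * Real.log 2 = Real.log (2 ^ 2) by rw [Real.log_pow]; push_cast; ring,
    Real.exp_log (by norm_num)]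
  norm_num

theorem zone_outer {e : Fin N} (he : e.val = 0) {z : ℝ × ℝ}
    (hz : z ∈ zone e (cut e + Real.log 2)) : (2 * (N : ℝ)) ^ 2 < qd e z := by
  have h1 := (dep_lt_iff hz.1).1 hz.2
  rw [if_pos he] at h1
  refine (le_of_eq ?_).trans_lt h1
  have hN : (0 : ℝ) < N := by exact_mod_cast e.pos
  rw [cut, if_pos he, show (4 : ℝ) * N = 2 * (2 * N) by ring,
    Real.log_mul (by norm_num) (by positivity),
    show -2 * (-(Real.log 2 + Real.log (2 * (N : ℝ))) + Real.log 2) = Real.log ((2 * (N : ℝ)) ^ 2) by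
      rw [Real.log_pow]; push_cast; ring, Real.exp_log (by positivity)]

/-- The zones of different ends are far apart. -/
theorem far {e i : Fin N} (hi : i.val ≠ 0) (hei : i ≠ e) {z : ℝ × ℝ}
    (hz : z ∈ zone e (cut e + Real.log 2)) :
    1 / 4 ≤ qd i z ∧ (e.val = 0 → qd e z / 4 ≤ qd i z ∧ qd i z ≤ 4 * qd e z) ∧
      (e.val ≠ 0 → qd i z ≤ (2 * (N : ℝ)) ^ 2) := by
  have hiN : ctr i ≤ N - 1 := by
    rw [le_sub_iff_add_le, ctr]; exact_mod_cast (i.isLt : i.val + 1 ≤ N)
  have hi1 : 1 ≤ ctr i := by unfold ctr; exact_mod_cast Nat.one_le_iff_ne_zero.2 hi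
  by_cases he : e.val = 0
  · have h1 := zone_outer he hz
    have hc : ctr e = 0 := by simp [ctr, he]
    simp only [qd, hc, sub_zero] at h1 ⊢
    have h2 : ctr i * ctr i ≤ (z.1 ^ 2 + z.2 ^ 2) / 4 := by nlinarith
    refine ⟨?_, fun _ => ⟨?_, ?_⟩, fun h => absurd he h⟩
    · nlinarith [sq_nonneg (z.1 - 2 * ctr i)]
    · nlinarith [sq_nonneg (z.1 - 2 * ctr i), sq_nonneg z.2]
    · nlinarith [sq_nonneg (z.1 + 2 * ctr i), sq_nonneg z.2]
  · have h1 := zone_finite he hz
    simp only [qd] at h1 ⊢
    have hd : 1 ≤ |ctr e - ctr i| := by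
      have : (1 : ℤ) ≤ |(e.val : ℤ) - i.val| := by
        refine Int.one_le_abs (sub_ne_zero.2 fun hh => hei (Fin.ext ?_))
        omega
      unfold ctr
      exact_mod_cast this
    have hz1 : |z.1 - ctr e| ≤ 1 / 2 := by
      rw [← Real.sqrt_sq_eq_abs, Real.sqrt_le_iff]
      constructor <;> nlinarith
    have hz2 : |z.2| ≤ 1 / 2 := by
      rw [← Real.sqrt_sq_eq_abs, Real.sqrt_le_iff]
      constructor <;> nlinarith
    have heN : ctr e ≤ N - 1 := by rw [le_sub_iff_add_le, ctr]; exact_mod_cast (e.isLt : e.val + 1 ≤ N)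
    have he0 : 0 ≤ ctr e := Nat.cast_nonneg _
    rw [abs_le] at hz1 hz2
    refine ⟨?_, fun h => absurd h he, fun _ => ?_⟩
    · rcases le_abs'.1 hd with h2 | h2 <;> nlinarith
    · have : |z.1 - ctr i| ≤ (N : ℝ) := abs_le.2 ⟨by linarith, by linarith⟩
      nlinarith [sq_abs (z.1 - ctr i), abs_nonneg (z.1 - ctr i)]

theorem zone_disjoint {e i : Fin N} (hei : e ≠ i) {z : ℝ × ℝ}
    (hz : z ∈ zone e (cut e + Real.log 2)) : z ∉ zone i (cut i + Real.log 2) := by
  intro hz'
  by_cases hi : i.val = 0
  · have he : e.val ≠ 0 := fun h => hei (Fin.ext (h.trans hi.symm))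
    have h1 := (far he hei hz').2.1 hi
    have h2 := zone_finite he hz
    have h3 := zone_outer hi hz'
    have h5 : (2 : ℝ) ≤ 2 * N := by
      have : (1 : ℝ) ≤ N := by exact_mod_cast e.pos
      linarith
    nlinarith
  · have h1 := (far hi hei.symm hz).1
    have h2 := zone_finite hi hz'
    linarith

theorem zone_qd_pos {e i : Fin N} (hi : i.val ≠ 0) {z : ℝ × ℝ}
    (hz : z ∈ zone e (cut e + Real.log 2)) : 0 < qd i z := by
  rcases eq_or_ne i e with rfl | hei
  · exact hz.1
  · linarith [(far hi hei hz).1]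

end

end Vale.Agent.P255.Build
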