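import Vale.Agent.P255.Piece.Angle
import Vale.Agent.P255.Index

/-!
The parametrisations of the ends, the curvature, and compactness of the core.
-/

open Set Filter
open scoped ContDiff Topology

namespace Vale.Agent.P255.Build

set_option maxSynthPendingDepth 3

noncomputable section

variable {N : ℕ}

/-- The radius of the circle at height `t`. -/
def radius (e : Fin N) (t : ℝ) : ℝ := Real.exp (sgn e * depAt e t)

/-- The point at height `t` and angle parameter `s`, measured in turns from the bottom in the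
boundary orientation. -/
def circlePt (e : Fin N) (t s : ℝ) : ℝ × ℝ :=
  (ctr e + sgn e * (radius e t * Real.sin (2 * Real.pi * s)),
    -(radius e t * Real.cos (2 * Real.pi * s)))

/-- The parametrisation of an end. -/
def endMap (e : Fin N) (q : E3) : E3 :=
  ((circlePt e q.1 q.2.2).1, (circlePt e q.1 q.2.2).2,
    q.2.1 + (euler e : ℝ) * q.2.2 - primitive e (circlePt e q.1 q.2.2))

theorem planeProj_endMap (e : Fin N) (q : E3) :
    planeProj (endMap e q) = circlePt e q.1 q.2.2 := rfl

theorem qd_circlePt (e : Fin N) (t s : ℝ) : qd e (circlePt e t s) = radius e t ^ 2 := by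
  simp only [qd, circlePt]
  linear_combination (radius e t ^ 2 * Real.sin (2 * Real.pi * s) ^ 2) * sgn_sq e +
    radius e t ^ 2 * Real.sin_sq_add_cos_sq (2 * Real.pi * s)

theorem qd_circlePt_pos (e : Fin N) (t s : ℝ) : 0 < qd e (circlePt e t s) := by
  rw [qd_circlePt]; exact pow_pos (Real.exp_pos _) 2

theorem dep_circlePt (e : Fin N) (t s : ℝ) : dep e (circlePt e t s) = depAt e t := by
  rw [dep, lg, qd_circlePt, Real.log_pow, radius, Real.log_exp]
  linear_combination depAt e t * sgn_sq e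

theorem circlePt_mem_zone (h : Ok N) (e : Fin N) {t : ℝ} (ht : t ∈ Ioo (-5 : ℝ) 5) (s : ℝ) :
    circlePt e t s ∈ zone e (depAt e (-5)) :=
  ⟨qd_circlePt_pos e t s, by rw [dep_circlePt]; exact depAt_lt h e ht.1 ht.2.le⟩

theorem circlePt_mem_cut (h : Ok N) (e : Fin N) {t : ℝ} (ht : t ∈ Icc (-5 : ℝ) 5) (s : ℝ) :
    circlePt e t s ∈ zone e (cut e + Real.log 2) :=
  ⟨qd_circlePt_pos e t s, by
    rw [dep_circlePt]
    linarith [depAt_lt_deep h e ht.1 ht.2, deep_lt_cut h e,
      Real.log_pos (show (1 : ℝ) < 2 by norm_num)]⟩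

theorem circlePt_mem_dom (h : Ok N) (e : Fin N) {t : ℝ} (ht : t ∈ Ioo (-5 : ℝ) 5) (s : ℝ) :
    circlePt e t s ∈ dom N := by
  have hz := circlePt_mem_cut h e (Ioo_subset_Icc_self ht) s
  refine (mem_dom_iff h).2 ⟨fun i hi => zone_qd_pos hi hz, fun i hq => ?_⟩
  rcases eq_or_ne i e with rfl | hie
  · rw [dep_circlePt]; exact depAt_lt h i ht.2 le_rfl
  · by_contra hc
    exact zone_disjoint (Ne.symm hie) hz ⟨hq, (not_lt.1 hc).trans_lt
      (lt_of_lt_of_le (depAt_lt_deep h i (by norm_num) le_rfl)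
        (by linarith [deep_lt_cut h i, Real.log_pos (show (1 : ℝ) < 2 by norm_num)]))⟩

theorem circlePt_periodic (e : Fin N) (t s : ℝ) (j : ℤ) :
    circlePt e t (s + j) = circlePt e t s := by
  have h1 : 2 * Real.pi * (s + j) = 2 * Real.pi * s + (j : ℝ) * (2 * Real.pi) := by ring
  simp only [circlePt, h1, Real.sin_add_int_mul_two_pi, Real.cos_add_int_mul_two_pi]

theorem collar_shift {q : E3} (hq : q ∈ collarSet) (i j : ℤ) : q + latShift i j ∈ collarSet := by
  simpa [collarSet, latShift] using hq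

theorem endMap_shift (e : Fin N) (q : E3) (i j : ℤ) :
    endMap e (q + latShift i j) = endMap e q + (0, 0, ((i + euler e * j : ℤ) : ℝ)) := by
  simp only [endMap, latShift, Prod.fst_add, Prod.snd_add, add_zero, circlePt_periodic]
  refine Prod.ext (by simp) (Prod.ext (by simp) ?_)
  simp
  ring

theorem endMap_fiber (e : Fin N) (q : E3) (s : ℝ) :
    endMap e (q + (0, s, 0)) = endMap e q + (0, 0, s) := by
  simp only [endMap, Prod.fst_add, Prod.snd_add, add_zero]
  refine Prod.ext (by simp) (Prod.ext (by simp) ?_)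
  simp
  ring

theorem depAt_inj (h : Ok N) (e : Fin N) {t t' : ℝ} (ht : t ≤ 5) (ht' : t' ≤ 5)
    (heq : depAt e t = depAt e t') : t = t' := by
  rcases lt_trichotomy t t' with hlt | hlt | hlt
  · exact absurd heq (depAt_lt h e hlt ht').ne'
  · exact hlt
  · exact absurd heq (depAt_lt h e hlt ht).ne

theorem endMap_inj (h : Ok N) (e : Fin N) {q q' : E3} (hq : q ∈ collarSet) (hq' : q' ∈ collarSet)
    (l : ℤ) (heq : endMap e q' = endMap e q + (0, 0, (l : ℝ))) :
    ∃ i j : ℤ, q' = q + latShift i j := by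
  have hz : circlePt e q'.1 q'.2.2 = circlePt e q.1 q.2.2 := by
    have := congrArg planeProj heq
    rw [map_add, planeProj_endMap, planeProj_endMap] at this
    simpa [Prod.mk_zero_zero] using this
  have ht : q'.1 = q.1 := depAt_inj h e hq'.2.le hq.2.le (by
    rw [← dep_circlePt e q'.1 q'.2.2, hz, dep_circlePt])
  have h3 := congrArg (fun y : E3 => y.2.2) heq
  simp only [endMap, Prod.snd_add, hz] at h3
  have hr : radius e q.1 ≠ 0 := (Real.exp_pos _).ne'
  simp only [circlePt, ht, Prod.mk.injEq, neg_inj, mul_eq_mul_left_iff, hr, or_false,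
    add_right_inj, sgn_ne] at hz
  have hang : (2 * Real.pi * q'.2.2 : Real.Angle) = (2 * Real.pi * q.2.2 : ℝ) :=
    Real.Angle.cos_sin_inj hz.2 hz.1
  obtain ⟨j, hj⟩ := Real.Angle.angle_eq_iff_two_pi_dvd_sub.1 hang
  have hj' : q'.2.2 = q.2.2 + j := by
    have hp : (2 * Real.pi) ≠ 0 := by positivity
    have : 2 * Real.pi * (q'.2.2 - q.2.2 - j) = 0 := by linear_combination hj
    linarith [(mul_eq_zero.1 this).resolve_left hp]
  refine ⟨l - euler e * j, j, Prod.ext ?_ (Prod.ext ?_ ?_)⟩
  · simpa [latShift] using ht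
  · simp only [latShift, Prod.snd_add, Prod.fst_add]
    push_cast
    rw [hj'] at h3
    linarith
  · simpa [latShift] using hj'

theorem latMetric_translate (h : Ok N) (t a b : ℝ) :
    latMetric N (t, a, b) = latMetric N (t, 0, 0) := by
  have h1 := h.good.translate (t, 0, 0) (a + eps N * b) (b - eps N * a)
  simp only [zero_add] at h1
  simp only [latMetric, latMap_apply, mul_zero, add_zero, sub_zero, h1]

theorem hasDerivAt_depAt (h : Ok N) (e : Fin N) {t : ℝ} (ht : t ≤ 5) :
    HasDerivAt (depAt e) (-(1 / lev N t)) t := by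
  have h1 : HasDerivAt (lev N) (-kap N) t :=
    (((((hasDerivAt_id t).const_sub (-3 : ℝ)).const_mul (slope N)).const_add
      (wval N)).const_mul (ratio N)).congr_deriv (by simp [kap])
  refine (((h1.log (lev_pos h ht).ne').sub_const (off e)).div_const (kap N)).congr_deriv ?_
  have := (kap_pos h).ne'
  field_simp

theorem hasFDerivAt_circlePt (h : Ok N) (e : Fin N) {q : E3} (hq : q.1 ≤ 5) :
    ∃ D : E3 →L[ℝ] ℝ × ℝ, HasFDerivAt (fun q : E3 => circlePt e q.1 q.2.2) D q ∧
      ∀ v, drad e (circlePt e q.1 q.2.2) (D v) = -(sgn e / lev N q.1) * v.1 ∧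
        dang e (circlePt e q.1 q.2.2) (D v) = 2 * Real.pi * sgn e * v.2.2 := by
  have hr : HasFDerivAt (fun q : E3 => radius e q.1)
      ((radius e q.1 * (-(sgn e / lev N q.1))) • ContinuousLinearMap.fst ℝ ℝ (ℝ × ℝ)) q := by
    have h1 := ((hasDerivAt_depAt h e hq).const_mul (sgn e)).exp
    refine (h1.comp_hasFDerivAt q
      (ContinuousLinearMap.fst ℝ ℝ (ℝ × ℝ)).hasFDerivAt).congr_fderiv ?_
    refine ContinuousLinearMap.ext fun v => ?_
    simp only [FunLike.coe_smul, Pi.smul_apply, smul_eq_mul, radius,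
      ContinuousLinearMap.coe_fst']
    ring
  have hp : HasFDerivAt (fun q : E3 => 2 * Real.pi * q.2.2) ((2 * Real.pi) • fibreProj) q :=
    (fibreProj.hasFDerivAt).const_mul (2 * Real.pi)
  have d1 := ((hr.fun_mul hp.sin).const_mul (sgn e)).const_add (ctr e)
  have d2 := (hr.fun_mul hp.cos).fun_neg
  refine ⟨_, d1.prodMk d2, fun v => ?_⟩
  have hR : radius e q.1 ≠ 0 := (Real.exp_pos _).ne'
  have hL := (lev_pos h hq).ne'
  have hs := Real.sin_sq_add_cos_sq (2 * Real.pi * q.2.2)
  have hg := sgn_sq e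
  simp only [drad, dang, lin_apply, qd_circlePt]
  simp only [circlePt, ContinuousLinearMap.prod_apply, FunLike.coe_smul, Pi.smul_apply,
    FunLike.coe_add, Pi.add_apply, FunLike.coe_neg, Pi.neg_apply, smul_eq_mul, fibreProj_apply,
    ContinuousLinearMap.coe_fst', add_sub_cancel_left, neg_neg]
  constructor <;> field_simp
  · linear_combination (2 * Real.pi * v.2.2 * Real.sin (2 * Real.pi * q.2.2) *
      Real.cos (2 * Real.pi * q.2.2) * lev N q.1 - sgn e * v.1 * Real.sin (2 * Real.pi * q.2.2) ^ 2) * hg -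
      sgn e * v.1 * hs
  · linear_combination (2 * Real.pi * sgn e * v.2.2 * lev N q.1) * hs

theorem hasFDerivAt_endMap (h : Ok N) (e : Fin N) {q : E3} (hq : q ∈ collarSet) :
    ∃ D : E3 →L[ℝ] E3, HasFDerivAt (endMap e) D q ∧
      ∀ v, frame e (endMap e q) (D v) = v := by
  obtain ⟨Dz, hDz, hD⟩ := hasFDerivAt_circlePt h e hq.2.le
  have hzc := circlePt_mem_cut h e (Ioo_subset_Icc_self hq) q.2.2
  have hF : HasFDerivAt (fun q : E3 => primitive e (circlePt e q.1 q.2.2)) _ q :=
    HasFDerivAt.comp (g := primitive e) q (hasFDerivAt_primitive hzc) hDz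
  have hlin := ((ContinuousLinearMap.fst ℝ ℝ ℝ).comp
    (ContinuousLinearMap.snd ℝ ℝ (ℝ × ℝ))).hasFDerivAt (x := q)
  have h3 := (hlin.fun_add (fibreProj.hasFDerivAt.const_mul ((euler e : ℤ) : ℝ))).fun_sub hF
  have d1 := (hasFDerivAt_fst (𝕜 := ℝ)).comp q hDz
  have d2 := (hasFDerivAt_snd (𝕜 := ℝ)).comp q hDz
  refine ⟨_, d1.prodMk (d2.prodMk h3), fun v => ?_⟩
  obtain ⟨e1, e2⟩ := hD v
  have hcirc : circ e (circlePt e q.1 q.2.2) = lev N q.1 := by
    rw [circ, dep_circlePt, lev_depAt h e hq.2.le]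
  have hL := (lev_pos h hq.2.le).ne'
  have hper := period_eq h e
  have hπ := Real.pi_ne_zero
  simp only [frame, planeProj_endMap, ContinuousLinearMap.prod_apply, FunLike.coe_smul,
    Pi.smul_apply, FunLike.coe_sub, Pi.sub_apply, ContinuousLinearMap.comp_apply, smul_eq_mul,
    alpha_apply, hcirc]
  simp only [planeProj_apply, ContinuousLinearMap.comp_apply, ContinuousLinearMap.coe_fst',
    ContinuousLinearMap.coe_snd', Prod.mk.eta]
  simp only [e1, e2, FunLike.coe_sub, FunLike.coe_add, FunLike.coe_smul, Pi.sub_apply,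
    Pi.add_apply, Pi.smul_apply, ContinuousLinearMap.comp_apply, smul_eq_mul, fibreProj_apply,
    ContinuousLinearMap.coe_fst', ContinuousLinearMap.coe_snd']
  have hg := sgn_sq e
  refine Prod.ext ?_ (Prod.ext ?_ ?_)
  · show -(sgn e * lev N q.1) * (-(sgn e / lev N q.1) * v.1) = v.1
    field_simp
    linear_combination v.1 * hg
  · show v.2.1 + _ * v.2.2 - _ + _ - _ = v.2.1
    field_simp
    linear_combination v.2.2 * (hper - eps N * hg)
  · show sgn e / (2 * Real.pi) * (2 * Real.pi * sgn e * v.2.2) = v.2.2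
    field_simp
    linear_combination v.2.2 * hg

theorem contDiffOn_endMap (h : Ok N) (e : Fin N) : ContDiffOn ℝ ∞ (endMap e) collarSet := by
  intro q hq
  have hlev : ContDiffAt ℝ ∞ (fun q : E3 => lev N q.1) q := by unfold lev; fun_prop
  have hdep : ContDiffAt ℝ ∞ (fun q : E3 => depAt e q.1) q :=
    ((hlev.log (lev_pos h hq.2.le).ne').sub contDiffAt_const).div_const _
  have hr : ContDiffAt ℝ ∞ (fun q : E3 => radius e q.1) q := (contDiffAt_const.mul hdep).exp
  have hp : ContDiffAt ℝ ∞ (fun q : E3 => 2 * Real.pi * q.2.2) q :=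
    contDiffAt_const.mul (contDiffAt_snd.comp q contDiffAt_snd)
  have hz : ContDiffAt ℝ ∞ (fun q : E3 => circlePt e q.1 q.2.2) q :=
    (contDiffAt_const.add (contDiffAt_const.mul (hr.mul hp.sin))).prodMk (hr.mul hp.cos).neg
  refine ((contDiffAt_fst.comp q hz).prodMk ((contDiffAt_snd.comp q hz).prodMk
    (((contDiffAt_fst.comp q contDiffAt_snd).add (contDiffAt_const.mul
      (contDiffAt_snd.comp q contDiffAt_snd))).sub
        ((contDiffAt_primitive (circlePt_mem_cut h e (Ioo_subset_Icc_self hq) q.2.2)).comp q hz)))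
    ).contDiffWithinAt

theorem bijective_fderiv_endMap (h : Ok N) (e : Fin N) {q : E3} (hq : q ∈ collarSet) :
    Function.Bijective (fderiv ℝ (endMap e) q) := by
  obtain ⟨D, hD, hinv⟩ := hasFDerivAt_endMap h e hq
  rw [hD.fderiv]
  have hinj : Function.Injective D := fun a b hab => by rw [← hinv a, ← hinv b, hab]
  exact ⟨hinj, (LinearMap.injective_iff_surjective (f := (D : E3 →ₗ[ℝ] E3))).1 hinj⟩

theorem pieceMetric_pull (h : Ok N) (e : Fin N) {q : E3} (hq : q ∈ collarSet) (u w : E3) :
    pieceMetric N (endMap e q) (fderiv ℝ (endMap e) q u) (fderiv ℝ (endMap e) q w) =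
      latMetric N q u w := by
  obtain ⟨D, hD, hinv⟩ := hasFDerivAt_endMap h e hq
  rw [hD.fderiv, pieceMetric_of_zone h (e := e)
    (show planeProj (endMap e q) ∈ dom N from circlePt_mem_dom h e hq q.2.2)
    (circlePt_mem_zone h e hq q.2.2), endMetric, ContinuousLinearMap.bilinearComp_apply, hinv, hinv,
    planeProj_endMap, time_depAt h hq.2.le (dep_circlePt e q.1 q.2.2),
    ← latMetric_translate h q.1 q.2.1 q.2.2]

theorem time_spec (h : Ok N) {e : Fin N} {z : ℝ × ℝ} :
    depAt e (time e z) = dep e z := by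
  have hr := (ratio_pos (N := N)).ne'
  have hs := (slope_pos h).ne'
  have hlev : lev N (time e z) = circ e z := by
    unfold lev time; field_simp; ring
  rw [depAt, hlev, circ, Real.log_exp, div_eq_iff (kap_pos h).ne']
  ring

/-- Every point deep in an end lies on the parametrised circles. -/
theorem exists_circlePt (h : Ok N) {e : Fin N} {z : ℝ × ℝ} (hz : 0 < qd e z) :
    ∃ s, circlePt e (time e z) s = z := by
  have hrad : radius e (time e z) = Real.sqrt (qd e z) := by
    rw [radius, time_spec h, dep, ← mul_assoc, sgn_sq, one_mul, lg, ← Real.log_sqrt hz.le,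
      Real.exp_log (Real.sqrt_pos.2 hz)]
  set w : ℂ := ⟨-z.2, sgn e * (z.1 - ctr e)⟩ with hw
  have hn : ‖w‖ = Real.sqrt (qd e z) := by
    rw [Complex.norm_def]
    congr 1
    simp only [w, Complex.normSq_mk, qd]
    linear_combination (z.1 - ctr e) ^ 2 * sgn_sq e
  refine ⟨Complex.arg w / (2 * Real.pi), ?_⟩
  have hπ := Real.pi_ne_zero
  have h1 := Complex.norm_mul_cos_arg w
  have h2 := Complex.norm_mul_sin_arg w
  simp only [w] at h1 h2
  rw [← hw, hn] at h1 h2
  simp only [circlePt, hrad, show 2 * Real.pi * (Complex.arg w / (2 * Real.pi)) = Complex.arg w by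
    field_simp]
  refine Prod.ext ?_ ?_
  · simp only [h2]
    linear_combination (z.1 - ctr e) * sgn_sq e
  · simp only [h1, neg_neg]

/-- A point of the domain deep in an end is in the image of the collar. -/
theorem exists_endMap (h : Ok N) {e : Fin N} {y : E3} (hd : planeProj y ∈ dom N)
    (hz : planeProj y ∈ zone e (depAt e (-5))) :
    ∃ q ∈ collarSet, endMap e q = y ∧ q.1 = time e (planeProj y) := by
  obtain ⟨s, hs⟩ := exists_circlePt h hz.1
  refine ⟨(time e (planeProj y),
    y.2.2 - (euler e : ℝ) * s + primitive e (planeProj y), s), time_mem h hd hz, ?_, rfl⟩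
  simp only [endMap, hs]
  refine Prod.ext rfl (Prod.ext rfl ?_)
  show y.2.2 - _ * s + _ + _ * s - _ = y.2.2
  ring

theorem endMap_disjoint (h : Ok N) {e e' : Fin N} (hne : e ≠ e') {q q' : E3}
    (hq : q ∈ collarSet) (hq' : q' ∈ collarSet) :
    circlePt e q.1 q.2.2 ≠ circlePt e' q'.1 q'.2.2 := fun heq =>
  zone_disjoint hne (circlePt_mem_cut h e (Ioo_subset_Icc_self hq) q.2.2)
    (heq ▸ circlePt_mem_cut h e' (Ioo_subset_Icc_self hq') q'.2.2)

theorem endMap_closed (h : Ok N) (e : Fin N) {z : ℝ × ℝ} (hz : z ∈ dom N)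
    (hc : z ∈ closure ((fun q : E3 => planeProj (endMap e q)) '' {q ∈ collarSet | 0 ≤ q.1})) :
    ∃ q ∈ collarSet, planeProj (endMap e q) = z := by
  set C : Set (ℝ × ℝ) := {w | if e.val = 0 then Real.exp (-2 * depAt e 0) ≤ qd e w
    else qd e w ≤ Real.exp (2 * depAt e 0)}
  have hC : IsClosed C := by
    simp only [C]
    split_ifs
    · exact isClosed_le continuous_const (continuous_qd e)
    · exact isClosed_le (continuous_qd e) continuous_const
  have hsub : (fun q : E3 => planeProj (endMap e q)) '' {q ∈ collarSet | 0 ≤ q.1} ⊆ C := by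
    rintro _ ⟨q, ⟨hq, hq0⟩, rfl⟩
    show planeProj (endMap e q) ∈ C
    rw [planeProj_endMap]
    refine (dep_le_iff (qd_circlePt_pos e _ _)).1 ?_
    rw [dep_circlePt]
    rcases hq0.eq_or_lt with h0 | h0
    · rw [← h0]
    · exact (depAt_lt h e h0 hq.2.le).le
  have hzC : z ∈ C := closure_minimal hsub hC hc
  have hq : 0 < qd e z := by
    by_cases he : e.val = 0
    · have := hzC
      simp only [C, mem_ofPred_eq, he, if_true] at this
      exact (Real.exp_pos _).trans_le this
    · exact ((mem_dom_iff h).1 hz).1 e he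
  have hd : dep e z < depAt e (-5) :=
    ((dep_le_iff hq).2 hzC).trans_lt (depAt_lt h e (by norm_num) (by norm_num))
  obtain ⟨q, hq', he', -⟩ := exists_endMap h (e := e) (y := ((z.1, z.2, 0) : E3)) hz ⟨hq, hd⟩
  exact ⟨q, hq', by rw [he']; rfl⟩

theorem isCompact_core (h : Ok N) :
    IsCompact {z ∈ dom N | ∀ e : Fin N, ∀ q ∈ collarSet,
      planeProj (endMap e q) = z → q.1 ≤ 0} := by
  set C : Set (ℝ × ℝ) := ⋂ e : Fin N, {z | if e.val = 0 then qd e z ≤ Real.exp (-2 * depAt e 0)
    else Real.exp (2 * depAt e 0) ≤ qd e z}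
  have hmem : ∀ z, z ∈ C ↔ ∀ e : Fin N, if e.val = 0 then qd e z ≤ Real.exp (-2 * depAt e 0)
      else Real.exp (2 * depAt e 0) ≤ qd e z := fun z => by simp [C]
  have hCd : C ⊆ dom N := fun z hz e => by
    have h05 := depAt_lt h e (show (0 : ℝ) < 5 by norm_num) le_rfl
    have := (hmem z).1 hz e
    split_ifs at this ⊢ with he
    · exact this.trans_lt (Real.exp_lt_exp.2 (by linarith))
    · exact (Real.exp_lt_exp.2 (by linarith)).trans_le this
  have heq : {z ∈ dom N | ∀ e : Fin N, ∀ q ∈ collarSet,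
      planeProj (endMap e q) = z → q.1 ≤ 0} = C := by
    ext z
    constructor
    · rintro ⟨hd, hall⟩
      rw [hmem]
      intro e
      rcases (qd_nonneg e z).eq_or_lt with hq | hq
      · split_ifs with he
        · rw [← hq]; exact (Real.exp_pos _).le
        · exact absurd hq (((mem_dom_iff h).1 hd).1 e he).ne
      · suffices hle : depAt e 0 ≤ dep e z by
          rcases hle.eq_or_lt with hle | hle
          · have h1 := (dep_le_iff hq).1 hle.ge
            have h2 : ¬ dep e z < depAt e 0 := not_lt.2 hle.le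
            rw [dep_lt_iff hq] at h2
            split_ifs at h2 ⊢ with he
            · exact not_lt.1 h2
            · exact not_lt.1 h2
          · have h1 := (lt_dep_iff hq).1 hle
            split_ifs at h1 ⊢ with he
            · exact h1.le
            · exact h1.le
        by_contra hlt
        obtain ⟨q, hq', he', ht⟩ := exists_endMap h (e := e) (y := ((z.1, z.2, 0) : E3)) hd
          ⟨hq, (not_le.1 hlt).trans (depAt_lt h e (by norm_num) (by norm_num))⟩
        have h0 := hall e q hq' (by rw [he']; rfl)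
        have h1 : q.1 = time e z := ht
        have h2 : 0 < time e z := time_gt h (by norm_num) (not_le.1 hlt)
        linarith
    · intro hz
      refine ⟨hCd hz, fun e q hq he => ?_⟩
      have h1 := (hmem z).1 hz e
      rw [planeProj_endMap] at he
      subst he
      by_contra h0
      have h2 : dep e (circlePt e q.1 q.2.2) < depAt e 0 := by
        rw [dep_circlePt]; exact depAt_lt h e (not_le.1 h0) hq.2.le
      rw [dep_lt_iff (qd_circlePt_pos e _ _)] at h2
      split_ifs at h1 h2 with he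
      · exact absurd h2 (not_lt.2 h1)
      · exact absurd h2 (not_lt.2 h1)
  rw [heq]
  refine Metric.isCompact_of_isClosed_isBounded ?_ ?_
  · refine isClosed_iInter fun e => ?_
    by_cases he : e.val = 0
    · simp only [he, if_true]; exact isClosed_le (continuous_qd e) continuous_const
    · simp only [he, if_false]; exact isClosed_le continuous_const (continuous_qd e)
  · have e0 : Fin N := ⟨0, by have := h.five; omega⟩
    refine (Metric.isBounded_closedBall (x := (0 : ℝ × ℝ))
      (r := Real.exp (-2 * depAt (⟨0, by have := h.five; omega⟩ : Fin N) 0) + 1)).subset ?_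
    intro z hz
    have h1 := (hmem z).1 hz ⟨0, by have := h.five; omega⟩
    simp only [if_true, qd, ctr, Nat.cast_zero, sub_zero] at h1
    rw [Metric.mem_closedBall, dist_zero_right, Prod.norm_def, max_le_iff, Real.norm_eq_abs,
      Real.norm_eq_abs]
    constructor <;> rw [abs_le] <;> constructor <;>
      nlinarith [sq_nonneg (z.1 - 1), sq_nonneg (z.1 + 1), sq_nonneg (z.2 - 1), sq_nonneg (z.2 + 1),
        sq_nonneg z.1, sq_nonneg z.2]

theorem nonpos_of_pull {U U' : Set E3} {G G' : E3 → E3 →L[ℝ] E3 →L[ℝ] ℝ}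
    (hG : P216.Chord.IsMetricOn U G) (hG' : P216.Chord.IsMetricOn U' G') {Φ : E3 → E3}
    (hΦ : ContDiffOn ℝ ∞ Φ U) (hmaps : MapsTo Φ U U')
    (hpull : ∀ y ∈ U, ∀ u w, G' (Φ y) (fderiv ℝ Φ y u) (fderiv ℝ Φ y w) = G y u w) {y : E3}
    (hy : y ∈ U) (hn : ∀ a b, G' (Φ y) (curvature G' (Φ y) a b b) a ≤ 0) (a b : E3) :
    G y (curvature G y a b b) a ≤ 0 := by
  rw [← hpull y hy, ← curvature_map hG hG' hΦ hmaps hpull hy]
  exact hn _ _

theorem nonpos_of_pull_surj {U U' : Set E3} {G G' : E3 → E3 →L[ℝ] E3 →L[ℝ] ℝ}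
    (hG : P216.Chord.IsMetricOn U G) (hG' : P216.Chord.IsMetricOn U' G') {Φ : E3 → E3}
    (hΦ : ContDiffOn ℝ ∞ Φ U) (hmaps : MapsTo Φ U U')
    (hpull : ∀ y ∈ U, ∀ u w, G' (Φ y) (fderiv ℝ Φ y u) (fderiv ℝ Φ y w) = G y u w) {y : E3}
    (hy : y ∈ U) (hsurj : Function.Surjective (fderiv ℝ Φ y))
    (hn : ∀ a b, G y (curvature G y a b b) a ≤ 0) (a b : E3) :
    G' (Φ y) (curvature G' (Φ y) a b b) a ≤ 0 := by
  obtain ⟨a', rfl⟩ := hsurj a
  obtain ⟨b', rfl⟩ := hsurj b
  rw [curvature_map hG hG' hΦ hmaps hpull hy, hpull y hy]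
  exact hn _ _

theorem curvature_pieceMetric (h : Ok N) {y : E3} (hy : planeProj y ∈ dom N)
    (hout : ∀ e : Fin N, ∀ q ∈ collarSet, |q.1| < 1 → planeProj (endMap e q) ≠ planeProj y)
    (u v : E3) : pieceMetric N y (curvature (pieceMetric N) y u v v) u ≤ 0 := by
  have hG := isMetricOn_pieceMetric h
  by_cases hc : ∃ e : Fin N, planeProj y ∈ zone e (depAt e (-4))
  · obtain ⟨e, he⟩ := hc
    obtain ⟨q, hq, rfl, -⟩ := exists_endMap h hy
      (zone_mono e (depAt_lt h e (show (-5 : ℝ) < -4 by norm_num) (by norm_num)).le he)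
    have ht : 1 ≤ |q.1| := not_lt.1 fun hlt => hout e q hq hlt rfl
    have hlat : P216.Chord.IsMetricOn collarSet (latMetric N) := by
      refine ⟨h.good.metric.isOpen, contDiffOn_latMetric h, fun p hp a b => ?_, fun p hp a ha => ?_⟩
      · simp only [latMetric, ContinuousLinearMap.bilinearComp_apply]
        exact h.good.metric.symm _ hp _ _
      · simp only [latMetric, ContinuousLinearMap.bilinearComp_apply]
        refine h.good.metric.pos _ hp _ fun h0 => ha ?_
        simp only [latMap_apply, Prod.mk_eq_zero] at h0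
        obtain ⟨a1, a2, a3⟩ := h0
        have b2 : (1 + eps N ^ 2) * a.2.2 = 0 := by linear_combination eps N * a2 + a3
        have b3 := (mul_eq_zero.1 b2).resolve_left (by positivity)
        rw [b3, mul_zero, add_zero] at a2
        exact Prod.ext a1 (Prod.ext a2 b3)
    have hmaps : MapsTo (endMap e) collarSet {y : E3 | (y.1, y.2.1) ∈ dom N} :=
      fun p hp => circlePt_mem_dom h e hp p.2.2
    have hpull : ∀ p ∈ collarSet, ∀ a b, pieceMetric N (endMap e p) (fderiv ℝ (endMap e) p a)
        (fderiv ℝ (endMap e) p b) = latMetric N p a b := fun p hp => pieceMetric_pull h e hp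
    refine nonpos_of_pull_surj hlat hG (contDiffOn_endMap h e) hmaps hpull hq
      (bijective_fderiv_endMap h e hq).2 (fun a b => ?_) u v
    refine nonpos_of_pull hlat h.good.metric (latMap N).contDiff.contDiffOn (fun p hp => hp)
      (fun p _ a b => ?_) hq (fun a b => h.good.curv_outer (latMap N q) hq ht a b) a b
    simp only [ContinuousLinearMap.fderiv]
    rfl
  · have hev := pieceMetric_eventually_core h hy fun e he => hc ⟨e, he⟩
    obtain ⟨U, F, hUo, hyU, hUd, hF, hFd⟩ := exists_local_primitive h hy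
    obtain ⟨O, hOsub, hOo, hyO⟩ := _root_.mem_nhds_iff.1
      (inter_mem hev ((hUo.preimage planeProj.continuous).mem_nhds hyU))
    have hG' : P216.Chord.IsMetricOn O (pieceMetric N) :=
      ⟨hOo, hG.smooth.mono fun p hp => hUd (hOsub hp).2,
        fun p hp => hG.symm p (hUd (hOsub hp).2), fun p hp => hG.pos p (hUd (hOsub hp).2)⟩
    set Φ : E3 → E3 := fun p => (p.1, p.2.1, p.2.2 + F (planeProj p))
    have hΦd : ∀ p ∈ O, HasFDerivAt Φ (straighten N p) p := by
      intro p hp
      have h1 : HasFDerivAt (fun p : E3 => F (planeProj p))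
          ((om N (planeProj p)).comp planeProj) p :=
        (hFd _ (hOsub hp).2).comp p planeProj.hasFDerivAt
      exact ((ContinuousLinearMap.fst ℝ ℝ (ℝ × ℝ)).hasFDerivAt).prodMk
        ((((ContinuousLinearMap.fst ℝ ℝ ℝ).comp (ContinuousLinearMap.snd ℝ ℝ (ℝ × ℝ))).hasFDerivAt).prodMk
          (fibreProj.hasFDerivAt.fun_add h1))
    have hΦ : ContDiffOn ℝ ∞ Φ O := by
      refine contDiff_fst.contDiffOn.prodMk ((contDiff_fst.comp contDiff_snd).contDiffOn.prodMk
        ((contDiff_snd.comp contDiff_snd).contDiffOn.add ?_))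
      exact hF.comp planeProj.contDiff.contDiffOn fun p hp => (hOsub hp).2
    have hmaps : MapsTo Φ O (planeProj ⁻¹' dom N) := fun p hp => hUd (hOsub hp).2
    have hpull : ∀ p ∈ O, ∀ a b, confMetric (conf N) (Φ p) (fderiv ℝ Φ p a) (fderiv ℝ Φ p b) =
        pieceMetric N p a b := by
      intro p hp a b
      rw [(hΦd p hp).fderiv, show pieceMetric N p = coreMetric N p from (hOsub hp).1]
      rfl
    have hC := isMetricOn_confMetric isOpen_dom (contDiffOn_conf h)
    obtain ⟨L, hL, hLap⟩ := hasLap_conf h hy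
    exact nonpos_of_pull hG' hC hΦ hmaps hpull hyO (fun a b =>
      curvature_confMetric_nonpos isOpen_dom (contDiffOn_conf h) (hmaps hyO) hLap hL a b) u v

end

end Vale.Agent.P255.Build
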