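import Vale.Agent.P255.Piece.Loops

/-!
The product of the boundary loops of the piece is null homotopic.
-/

open Set Filter
open scoped ContDiff Topology unitInterval

namespace Vale.Agent.P255.Build

noncomputable section

variable {N : ℕ}

abbrev Cls (N : ℕ) (a b : dom N) := Path.Homotopic.Quotient a b

/-- The base point of the domain. -/
def basePt (h : Ok N) : dom N := ⟨base, (low h).sub (base_mem h)⟩

/-- The upper auxiliary point of the domain. -/
def topPt (h : Ok N) : dom N := ⟨top, (high h).sub (top_mem h)⟩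

/-- A lower gate point. -/
def lowPt (h : Ok N) {k : ℕ} (hk : k < N) : dom N := ⟨gateLow k, (low h).sub (gate_mem h hk).1.1⟩

/-- An upper gate point. -/
def highPt (h : Ok N) {k : ℕ} (hk : k < N) : dom N :=
  ⟨gateHigh k, (high h).sub (gate_mem h hk).2.1⟩

/-- The straight path between two points, when it lies in the domain. -/
def segPath (a b : dom N) (hs : segment ℝ (a : ℝ × ℝ) b ⊆ dom N) : Path a b where
  toFun s := ⟨(1 - (s : ℝ)) • (a : ℝ × ℝ) + (s : ℝ) • (b : ℝ × ℝ),
    hs ⟨1 - s, s, by linarith [s.2.2], s.2.1, by ring, rfl⟩⟩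
  continuous_toFun := Continuous.subtype_mk (by fun_prop) _
  source' := Subtype.ext (by simp)
  target' := Subtype.ext (by simp)

open Classical in
/-- The class of the straight path between two points. -/
def seg (h : Ok N) (a b : dom N) : Cls N a b :=
  if hs : segment ℝ (a : ℝ × ℝ) b ⊆ dom N then Path.Homotopic.Quotient.mk (segPath a b hs)
  else Path.Homotopic.Quotient.mk
    ((isPathConnected_iff_pathConnectedSpace.1 (isPathConnected_dom h)).joined a b).somePath

theorem mk_eq_seg (h : Ok N) (R : Region N) {a b : dom N} (p : Path a b)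
    (hp : ∀ s, (p s : ℝ × ℝ) ∈ R.C) : Path.Homotopic.Quotient.mk p = seg h a b := by
  have ha : (a : ℝ × ℝ) ∈ R.C := by simpa using hp 0
  have hb : (b : ℝ × ℝ) ∈ R.C := by simpa using hp 1
  have hs : segment ℝ (a : ℝ × ℝ) b ⊆ dom N := (R.conv.segment_subset ha hb).trans R.sub
  rw [seg, dif_pos hs]
  refine Path.Homotopic.Quotient.eq.2 ?_
  have hq : ∀ s, (segPath a b hs s : ℝ × ℝ) ∈ R.C := fun s =>
    R.conv.segment_subset ha hb ⟨1 - s, s, by linarith [s.2.2], s.2.1, by ring, rfl⟩
  refine ⟨{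
    toFun := fun x => ⟨(1 - (x.1 : ℝ)) • (p x.2 : ℝ × ℝ) + (x.1 : ℝ) • (segPath a b hs x.2 : ℝ × ℝ),
      R.sub (R.conv.segment_subset (hp x.2) (hq x.2)
        ⟨1 - x.1, x.1, by linarith [x.1.2.2], x.1.2.1, by ring, rfl⟩)⟩
    continuous_toFun := Continuous.subtype_mk (by fun_prop) _
    map_zero_left := fun s => Subtype.ext (by simp)
    map_one_left := fun s => Subtype.ext (by simp)
    prop' := fun τ s hs' => ?_ }⟩
  rcases hs' with rfl | rfl <;> refine Subtype.ext ?_ <;> simp [segPath, ← add_smul]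

theorem seg_trans (h : Ok N) (R : Region N) {a b c : dom N} (ha : (a : ℝ × ℝ) ∈ R.C)
    (hb : (b : ℝ × ℝ) ∈ R.C) (hc : (c : ℝ × ℝ) ∈ R.C) :
    (seg h a b).trans (seg h b c) = seg h a c := by
  have hs : ∀ {x y : dom N}, (x : ℝ × ℝ) ∈ R.C → (y : ℝ × ℝ) ∈ R.C →
      segment ℝ (x : ℝ × ℝ) y ⊆ dom N := fun hx hy =>
    (R.conv.segment_subset hx hy).trans R.sub
  have hmem : ∀ {x y : dom N} (hx : (x : ℝ × ℝ) ∈ R.C) (hy : (y : ℝ × ℝ) ∈ R.C) (s : I),
      (segPath x y (hs hx hy) s : ℝ × ℝ) ∈ R.C := fun hx hy s =>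
    R.conv.segment_subset hx hy ⟨1 - s, s, by linarith [s.2.2], s.2.1, by ring, rfl⟩
  rw [← mk_eq_seg h R ((segPath a b (hs ha hb)).trans (segPath b c (hs hb hc))) fun s => ?_,
    Path.Homotopic.Quotient.mk_trans, seg, seg, dif_pos (hs ha hb), dif_pos (hs hb hc)]
  rw [Path.trans_apply]
  split_ifs
  · exact hmem ha hb _
  · exact hmem hb hc _

theorem seg_self (h : Ok N) (R : Region N) {a : dom N} (ha : (a : ℝ × ℝ) ∈ R.C) :
    seg h a a = Path.Homotopic.Quotient.refl a := by
  rw [← Path.Homotopic.Quotient.mk_refl, mk_eq_seg h R (Path.refl a) fun s => ha]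

theorem seg_cancel (h : Ok N) (R : Region N) {a b c : dom N} (ha : (a : ℝ × ℝ) ∈ R.C)
    (hb : (b : ℝ × ℝ) ∈ R.C) (q : Cls N a c) :
    (seg h a b).trans ((seg h b a).trans q) = q := by
  rw [← Path.Homotopic.Quotient.trans_assoc, seg_trans h R ha hb ha, seg_self h R ha,
    Path.Homotopic.Quotient.refl_trans]

theorem seg_symm (h : Ok N) (R : Region N) {a b : dom N} (ha : (a : ℝ × ℝ) ∈ R.C)
    (hb : (b : ℝ × ℝ) ∈ R.C) : (seg h a b).symm = seg h b a := by
  calc (seg h a b).symm
      = (seg h a b).symm.trans ((seg h a b).trans (seg h b a)) := by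
        rw [seg_trans h R ha hb ha, seg_self h R ha, Path.Homotopic.Quotient.trans_refl]
    _ = seg h b a := by
        rw [← Path.Homotopic.Quotient.trans_assoc, Path.Homotopic.Quotient.symm_trans,
          Path.Homotopic.Quotient.refl_trans]

theorem symm_trans_symm {X : Type*} [TopologicalSpace X] {a b c : X}
    (p : Path.Homotopic.Quotient a b) (q : Path.Homotopic.Quotient b c) :
    (p.trans q).symm = q.symm.trans p.symm := by
  induction p with | mk p =>
  induction q with | mk q =>
  rw [← Path.Homotopic.Quotient.mk_trans, ← Path.Homotopic.Quotient.mk_symm,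
    ← Path.Homotopic.Quotient.mk_symm, ← Path.Homotopic.Quotient.mk_symm,
    ← Path.Homotopic.Quotient.mk_trans, Path.trans_symm]

/-- The class from `x` through the gate `k` to the top point. -/
def across (h : Ok N) (x : dom N) {k : ℕ} (hk : k < N) : Cls N x (topPt h) :=
  (seg h x (lowPt h hk)).trans ((seg h (lowPt h hk) (highPt h hk)).trans
    (seg h (highPt h hk) (topPt h)))

theorem five_regions (h : Ok N) {x : dom N} (γ : Path x x) {ka kb : ℕ} (hka : ka < N) (hkb : kb < N)
    (t : Fin 4 → I) (h01 : t 0 ≤ t 1) (h12 : t 1 ≤ t 2) (h23 : t 2 ≤ t 3)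
    (r0 : ∀ s ≤ t 0, (γ s : ℝ × ℝ) ∈ (low h).C)
    (r1 : ∀ s, t 0 ≤ s → s ≤ t 1 → (γ s : ℝ × ℝ) ∈ (strip h ka).C)
    (r2 : ∀ s, t 1 ≤ s → s ≤ t 2 → (γ s : ℝ × ℝ) ∈ (high h).C)
    (r3 : ∀ s, t 2 ≤ s → s ≤ t 3 → (γ s : ℝ × ℝ) ∈ (strip h kb).C)
    (r4 : ∀ s, t 3 ≤ s → (γ s : ℝ × ℝ) ∈ (low h).C) :
    Path.Homotopic.Quotient.mk γ = (across h x hka).trans (across h x hkb).symm := by
  have hin : ∀ {u v : I}, u ≤ v → ∀ (R : Region N),
      (∀ s, u ≤ s → s ≤ v → (γ s : ℝ × ℝ) ∈ R.C) →
      Path.Homotopic.Quotient.mk (γ.subpath u v) = seg h (γ u) (γ v) := by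
    intro u v huv R hR
    refine mk_eq_seg h R _ fun s => ?_
    have : γ.subpath u v s ∈ range (γ.subpath u v) := mem_range_self s
    rw [Path.range_subpath_of_le _ _ _ huv] at this
    obtain ⟨w, hw, hw'⟩ := this
    rw [← hw']
    exact hR w hw.1 hw.2
  have hsplit : ∀ u v w : I, Path.Homotopic.Quotient.mk (γ.subpath u w) =
      (Path.Homotopic.Quotient.mk (γ.subpath u v)).trans
        (Path.Homotopic.Quotient.mk (γ.subpath v w)) := fun u v w => by
    rw [← Path.Homotopic.Quotient.mk_trans]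
    exact (Path.Homotopic.Quotient.eq.2 ⟨Path.Homotopy.subpathTransSubpath γ u v w⟩).symm
  obtain ⟨⟨gA, gA'⟩, gAh, gAh'⟩ := gate_mem h hka
  obtain ⟨⟨gB, gB'⟩, gBh, gBh'⟩ := gate_mem h hkb
  have hx : (x : ℝ × ℝ) ∈ (low h).C := by simpa using r0 0 (t 0).2.1
  have p1 := r0 (t 0) le_rfl
  have p1' := r1 (t 0) le_rfl h01
  have p2 := r1 (t 1) h01 le_rfl
  have p2' := r2 (t 1) le_rfl h12
  have p3 := r2 (t 2) h12 le_rfl
  have p3' := r3 (t 2) le_rfl h23
  have p4 := r3 (t 3) h23 le_rfl
  have p4' := r4 (t 3) le_rfl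
  have e1 : Path.Homotopic.Quotient.mk (γ.subpath 0 1) =
      (seg h (γ 0) (γ (t 0))).trans ((seg h (γ (t 0)) (γ (t 1))).trans
        ((seg h (γ (t 1)) (γ (t 2))).trans ((seg h (γ (t 2)) (γ (t 3))).trans
          (seg h (γ (t 3)) (γ 1))))) := by
    rw [hsplit 0 (t 0) 1, hsplit (t 0) (t 1) 1, hsplit (t 1) (t 2) 1, hsplit (t 2) (t 3) 1,
      hin (t 0).2.1 _ (fun s _ hs => r0 s hs), hin h01 _ r1, hin h12 _ r2, hin h23 _ r3,
      hin (t 3).2.2 _ (fun s hs _ => r4 s hs)]
  have key : ∀ (y z : dom N), (y : ℝ × ℝ) ∈ (low h).C → (z : ℝ × ℝ) ∈ (low h).C →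
      (seg h y (γ (t 0))).trans ((seg h (γ (t 0)) (γ (t 1))).trans
        ((seg h (γ (t 1)) (γ (t 2))).trans ((seg h (γ (t 2)) (γ (t 3))).trans
          (seg h (γ (t 3)) z)))) = (across h y hka).trans (across h z hkb).symm := by
    intro y z hy hz
    rw [across, across, symm_trans_symm, symm_trans_symm, seg_symm h (low h) (b := lowPt h hkb) hz gB,
      seg_symm h (strip h kb) (a := lowPt h hkb) (b := highPt h hkb) gB' gBh',
      seg_symm h (high h) (a := highPt h hkb) (b := topPt h) gBh (top_mem h),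
      ← seg_trans h (low h) (b := lowPt h hka) hy gA p1,
      ← seg_trans h (strip h ka) (b := lowPt h hka) p1' gA' p2,
      ← seg_trans h (strip h ka) (a := lowPt h hka) (b := highPt h hka) gA' gAh' p2,
      ← seg_trans h (high h) (b := highPt h hka) p2' gAh p3,
      ← seg_trans h (high h) (a := highPt h hka) (b := topPt h) gAh (top_mem h) p3,
      ← seg_trans h (high h) (a := topPt h) (b := highPt h hkb) (top_mem h) gBh p3,
      ← seg_trans h (strip h kb) (b := highPt h hkb) p3' gBh' p4,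
      ← seg_trans h (strip h kb) (a := highPt h hkb) (b := lowPt h hkb) gBh' gB' p4,
      ← seg_trans h (low h) (b := lowPt h hkb) p4' gB hz]
    simp only [Path.Homotopic.Quotient.trans_assoc]
    rw [seg_cancel h (low h) (a := lowPt h hka) gA p1,
      seg_cancel h (strip h ka) (a := highPt h hka) gAh' p2,
      seg_cancel h (high h) (a := highPt h hkb) gBh p3,
      seg_cancel h (strip h kb) (a := lowPt h hkb) gB' p4]
  have e2 := key (γ 0) (γ 1) (r0 0 (t 0).2.1) (r4 1 (t 3).2.2)
  rw [e2] at e1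
  have hcast : ∀ {a b : dom N} (ha : a = x) (hb : b = x),
      ((across h a hka).trans (across h b hkb).symm) =
        (((across h x hka).trans (across h x hkb).symm)).cast ha hb := by
    intro a b ha hb; subst ha hb; simp
  rw [hcast γ.source γ.target, Path.subpath_zero_one, Path.Homotopic.Quotient.mk_cast] at e1
  have e3 := congrArg (fun q => q.cast γ.source.symm γ.target.symm) e1
  simpa using e3

theorem cos_ge {x : ℝ} (hx : |x| ≤ 1 / 8) : 3 / 5 ≤ Real.cos (2 * Real.pi * x) := by
  refine le_trans ?_ (Real.one_sub_sq_div_two_le_cos (x := 2 * Real.pi * x))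
  have hp := Real.pi_lt_d2
  have hp0 := Real.pi_pos
  rw [abs_le] at hx
  have : x ^ 2 ≤ 1 / 64 := by nlinarith
  nlinarith [mul_le_mul_of_nonneg_left this (sq_nonneg (2 * Real.pi)),
    mul_le_mul hp.le hp.le hp0.le (by norm_num : (0 : ℝ) ≤ 3.15)]

theorem stdRad_ge (h : Ok N) (e : Fin N) : 1 / 4 ≤ stdRad e := by
  have hN : (5 : ℝ) ≤ N := by exact_mod_cast h.five
  unfold stdRad; split_ifs <;> linarith

theorem std_ball (h : Ok N) (e : Fin N) (u : ℝ) : ringPt e (stdRad e) u ∈ ball h := by
  have hN : (5 : ℝ) ≤ N := by exact_mod_cast h.five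
  have hb := big_ball h
  have h1 := ring_sq e (stdRad e) u
  simp only [qd] at h1
  simp only [ball, mem_ofPred_eq]
  set P := ringPt e (stdRad e) u
  have hc0 : 0 ≤ ctr e := Nat.cast_nonneg _
  have hcN : ctr e ≤ N := by unfold ctr; exact_mod_cast e.isLt.le
  by_cases he : e.val = 0
  · have : ctr e = 0 := by simp [ctr, he]
    simp only [stdRad, he, if_true, this, sub_zero] at h1
    nlinarith
  · simp only [stdRad, he, if_false] at h1
    nlinarith [sq_nonneg (P.1 - 2 * ctr e), mul_le_mul hcN hcN hc0 (Nat.cast_nonneg N)]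

theorem ring_low (h : Ok N) (e : Fin N) {u : ℝ} (hu : |u| ≤ 1 / 8 ∨ |u - 1| ≤ 1 / 8) :
    ringPt e (stdRad e) u ∈ (low h).C := by
  refine ⟨std_ball h e u, ?_⟩
  have hc : 3 / 5 ≤ Real.cos (2 * Real.pi * u) := by
    rcases hu with hu | hu
    · exact cos_ge hu
    · have := cos_ge hu
      rwa [show 2 * Real.pi * (u - 1) = 2 * Real.pi * u - 2 * Real.pi by ring,
        Real.cos_sub_two_pi] at this
  simp only [ringPt]
  nlinarith [mul_le_mul (stdRad_ge h e) hc (by norm_num) (by linarith [stdRad_ge h e])]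

theorem spoke_low (h : Ok N) (e : Fin N) {u : ℝ} (hu : u ∈ Icc (0 : ℝ) 1) :
    spokePt e (stdRad e) u ∈ (low h).C :=
  (low h).conv.segment_subset (base_mem h) (ring_low h e (Or.inl (by norm_num)))
    ⟨1 - u, u, by linarith [hu.2], hu.1, by ring, rfl⟩

theorem ring_high (h : Ok N) (e : Fin N) {u : ℝ} (hu : |u - 1 / 2| ≤ 1 / 8) :
    ringPt e (stdRad e) u ∈ (high h).C := by
  refine ⟨std_ball h e u, ?_⟩
  have hc := cos_ge hu
  rw [show 2 * Real.pi * (u - 1 / 2) = 2 * Real.pi * u - Real.pi by ring, Real.cos_sub_pi] at hc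
  simp only [ringPt]
  nlinarith [mul_le_mul (stdRad_ge h e) hc (by norm_num) (by linarith [stdRad_ge h e])]

/-- The strip on the first side of an end. -/
def sideA (e : Fin N) : ℕ := if e.val = 0 then 0 else e.val

/-- The strip on the second side of an end. -/
def sideB (e : Fin N) : ℕ := if e.val = 0 then N - 1 else e.val - 1

theorem side_lt (e : Fin N) : sideA e < N ∧ sideB e < N := by
  have := e.isLt
  unfold sideA sideB
  split_ifs <;> omega

theorem ring_sideA (h : Ok N) (e : Fin N) {u : ℝ} (hu : |u - 1 / 4| ≤ 1 / 8) :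
    ringPt e (stdRad e) u ∈ (strip h (sideA e)).C := by
  refine ⟨std_ball h e u, fun i hi => ?_⟩
  have hc := cos_ge hu
  rw [show 2 * Real.pi * (u - 1 / 4) = 2 * Real.pi * u - Real.pi / 2 by ring,
    Real.cos_sub_pi_div_two] at hc
  have hN : (5 : ℝ) ≤ N := by exact_mod_cast h.five
  have hs1 := Real.sin_le_one (2 * Real.pi * u)
  have hi1 : 1 ≤ ctr i := by unfold ctr; exact_mod_cast Nat.one_le_iff_ne_zero.2 hi
  simp only [ringPt]
  by_cases he : e.val = 0
  · simp only [sideA, he, if_true, stdRad, sgn, show ctr e = 0 by simp [ctr, he]]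
    refine ⟨fun hc' => absurd (Nat.le_zero.1 hc') hi, fun _ => ?_⟩
    nlinarith
  · simp only [sideA, he, if_false, stdRad, sgn, one_mul]
    refine ⟨fun hle => ?_, fun hlt => ?_⟩
    · have : ctr i ≤ ctr e := by unfold ctr; exact_mod_cast hle
      nlinarith
    · have : ctr e + 1 ≤ ctr i := by unfold ctr; exact_mod_cast hlt
      nlinarith

theorem ring_sideB (h : Ok N) (e : Fin N) {u : ℝ} (hu : |u - 3 / 4| ≤ 1 / 8) :
    ringPt e (stdRad e) u ∈ (strip h (sideB e)).C := by
  refine ⟨std_ball h e u, fun i hi => ?_⟩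
  have hc := cos_ge hu
  rw [show 2 * Real.pi * (u - 3 / 4) = 2 * Real.pi * u - Real.pi - Real.pi / 2 by ring,
    Real.cos_sub_pi_div_two, Real.sin_sub_pi] at hc
  have hN : (5 : ℝ) ≤ N := by exact_mod_cast h.five
  have hs1 := Real.neg_one_le_sin (2 * Real.pi * u)
  have hiN : ctr i ≤ N - 1 := by
    rw [le_sub_iff_add_le, ctr]; exact_mod_cast (i.isLt : i.val + 1 ≤ N)
  simp only [ringPt]
  by_cases he : e.val = 0
  · simp only [sideB, he, if_true, stdRad, sgn, show ctr e = 0 by simp [ctr, he]]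
    refine ⟨fun _ => ?_, fun hlt => absurd hlt (by have := i.isLt; omega)⟩
    nlinarith
  · simp only [sideB, he, if_false, stdRad, sgn, one_mul]
    refine ⟨fun hle => ?_, fun hlt => ?_⟩
    · have : ctr i + 1 ≤ ctr e := by unfold ctr; exact_mod_cast (show i.val + 1 ≤ e.val by omega)
      nlinarith
    · have : ctr e ≤ ctr i := by unfold ctr; exact_mod_cast (show e.val ≤ i.val by omega)
      nlinarith

theorem loop_class (h : Ok N) (e : Fin N) :
    Path.Homotopic.Quotient.mk (loopPath h e left_mem_uIcc) =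
      (across h (basePt h) (side_lt e).1).trans (across h (basePt h) (side_lt e).2).symm := by
  rw [Path.Homotopic.Quotient.eq.2 (loopPath_homotopic h e)]
  refine five_regions h (loopPath h e right_mem_uIcc) (side_lt e).1 (side_lt e).2
    ![⟨3 / 8, by norm_num⟩, ⟨11 / 24, by norm_num⟩, ⟨13 / 24, by norm_num⟩, ⟨5 / 8, by norm_num⟩]
    (by show (3 / 8 : ℝ) ≤ 11 / 24; norm_num) (by show (11 / 24 : ℝ) ≤ 13 / 24; norm_num)
    (by show (13 / 24 : ℝ) ≤ 5 / 8; norm_num) ?_ ?_ ?_ ?_ ?_
  all_goals intro s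
  · intro hs
    have hs' : (s : ℝ) ≤ 3 / 8 := hs
    show loopPt e (stdRad e) s ∈ _
    unfold loopPt
    split_ifs with h1 h2
    · exact spoke_low h e ⟨by linarith [s.2.1], by linarith⟩
    · exact ring_low h e (Or.inl (abs_le.2 ⟨by linarith, by linarith⟩))
    · linarith
  · intro hs hs2
    have hs' : 3 / 8 ≤ (s : ℝ) := hs
    have hs2' : (s : ℝ) ≤ 11 / 24 := hs2
    show loopPt e (stdRad e) s ∈ _
    unfold loopPt
    rw [if_neg (by linarith), if_pos (by linarith)]
    exact ring_sideA h e (abs_le.2 ⟨by linarith, by linarith⟩)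
  · intro hs hs2
    have hs' : 11 / 24 ≤ (s : ℝ) := hs
    have hs2' : (s : ℝ) ≤ 13 / 24 := hs2
    show loopPt e (stdRad e) s ∈ _
    unfold loopPt
    rw [if_neg (by linarith), if_pos (by linarith)]
    exact ring_high h e (abs_le.2 ⟨by linarith, by linarith⟩)
  · intro hs hs2
    have hs' : 13 / 24 ≤ (s : ℝ) := hs
    have hs2' : (s : ℝ) ≤ 5 / 8 := hs2
    show loopPt e (stdRad e) s ∈ _
    unfold loopPt
    rw [if_neg (by linarith), if_pos (by linarith)]
    exact ring_sideB h e (abs_le.2 ⟨by linarith, by linarith⟩)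
  · intro hs
    have hs' : 5 / 8 ≤ (s : ℝ) := hs
    show loopPt e (stdRad e) s ∈ _
    unfold loopPt
    split_ifs with h1 h2
    · linarith
    · exact ring_low h e (Or.inr (abs_le.2 ⟨by linarith, by linarith⟩))
    · exact spoke_low h e ⟨by linarith [s.2.2], by linarith⟩

/-- The loops of the boundary, in increasing order, starting after the outer one. -/
theorem loop_product (h : Ok N) :
    ((List.finRange N).map fun i => FundamentalGroup.fromPath
      (Path.Homotopic.Quotient.mk (loopPath h (finRotate N i) left_mem_uIcc))).prod = 1 := by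
  set A : ∀ k, k < N → Cls N (basePt h) (topPt h) := fun k hk => across h (basePt h) hk
  have hg : ∀ i : Fin N, ∃ (ha : (sideA (finRotate N i)) < N) (hb : (sideB (finRotate N i)) < N),
      FundamentalGroup.fromPath
        (Path.Homotopic.Quotient.mk (loopPath h (finRotate N i) left_mem_uIcc)) =
        (A _ ha).trans (A _ hb).symm := fun i =>
    ⟨(side_lt _).1, (side_lt _).2, loop_class h _⟩
  have main : ∀ m (hm : m < N), ((List.finRange N).take m |>.map fun i =>
      FundamentalGroup.fromPath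
        (Path.Homotopic.Quotient.mk (loopPath h (finRotate N i) left_mem_uIcc))).prod =
      (A m hm).trans (A 0 (by omega)).symm := by
    intro m
    induction m with
    | zero =>
      intro hm
      simp only [List.take_zero, List.map_nil, List.prod_nil, Path.Homotopic.Quotient.trans_symm]
      rfl
    | succ m ih =>
      intro hm
      rw [List.take_succ_eq_append_getElem (by rw [List.length_finRange]; omega), List.map_append,
        List.prod_append, ih (by omega), List.map_singleton, List.prod_singleton,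
        List.getElem_finRange]
      obtain ⟨ha, hb, e1⟩ := hg ⟨m, by omega⟩
      have hrot : (finRotate N ⟨m, by omega⟩).val = m + 1 := by
        obtain ⟨n, rfl⟩ : ∃ n, N = n + 1 := ⟨N - 1, by omega⟩
        rw [finRotate_succ_apply, Fin.val_add_one_of_lt (by
          rw [Fin.lt_def, Fin.val_last]; show m < n; omega)]
      have hA : sideA (finRotate N ⟨m, by omega⟩) = m + 1 := by
        unfold sideA; rw [if_neg (by omega), hrot]
      have hB : sideB (finRotate N ⟨m, by omega⟩) = m := by
        unfold sideB; rw [if_neg (by omega), hrot]; omega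
      have hcg : ∀ {j k : ℕ} (hj : j < N) (hk : k < N), j = k → A j hj = A k hk := by
        intro j k hj hk hjk; subst hjk; rfl
      rw [hcg ha hm hA, hcg hb (by omega) hB] at e1
      simp only [Fin.cast_mk] at e1 ⊢
      rw [e1]
      show ((A (m + 1) hm).trans (A m (by omega)).symm).trans
        ((A m (by omega)).trans (A 0 (by omega)).symm) = (A (m + 1) hm).trans (A 0 (by omega)).symm
      rw [Path.Homotopic.Quotient.trans_assoc, ← Path.Homotopic.Quotient.trans_assoc (A m (by omega)).symm,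
        Path.Homotopic.Quotient.symm_trans, Path.Homotopic.Quotient.refl_trans]
  obtain ⟨n, rfl⟩ : ∃ n, N = n + 1 := ⟨N - 1, by have := h.five; omega⟩
  have hsplit : List.finRange (n + 1) = (List.finRange (n + 1)).take n ++ [Fin.last n] := by
    conv_lhs => rw [← List.take_length (l := List.finRange (n + 1)), List.length_finRange,
      List.take_succ_eq_append_getElem (by rw [List.length_finRange]; omega), List.getElem_finRange]
    rfl
  rw [hsplit, List.map_append, List.prod_append, main n (by omega), List.map_singleton,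
    List.prod_singleton]
  obtain ⟨ha, hb, e1⟩ := hg (Fin.last n)
  have hcg : ∀ {j k : ℕ} (hj : j < n + 1) (hk : k < n + 1), j = k → A j hj = A k hk := by
    intro j k hj hk hjk; subst hjk; rfl
  rw [hcg ha (by omega : 0 < n + 1) (by simp [sideA, finRotate_succ_apply]),
    hcg hb (by omega : n < n + 1) (by simp [sideB, finRotate_succ_apply])] at e1
  rw [e1]
  show ((A 0 (by omega)).trans (A n (by omega)).symm).trans
    ((A n (by omega)).trans (A 0 (by omega)).symm) = Path.Homotopic.Quotient.refl (basePt h)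
  rw [Path.Homotopic.Quotient.trans_assoc, ← Path.Homotopic.Quotient.trans_assoc (A n (by omega)).symm,
    Path.Homotopic.Quotient.symm_trans, Path.Homotopic.Quotient.refl_trans,
    Path.Homotopic.Quotient.trans_symm]

end

end Vale.Agent.P255.Build
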