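import Vale.Agent.P255.Piece.Ends

/-!
Spokes, path connectedness of the domain, and the relation between the boundary loops.
-/

open Set Filter
open scoped ContDiff Topology unitInterval

namespace Vale.Agent.P255.Build

noncomputable section

variable {N : ℕ}

/-- The base point. -/
def base : ℝ × ℝ := (0, -1)

/-- The auxiliary upper point. -/
def top : ℝ × ℝ := (0, 1)

/-- The first end. -/
def out (h : Ok N) : Fin N := ⟨0, by have := h.five; omega⟩

/-- The outer disc. -/
def ball (h : Ok N) : Set (ℝ × ℝ) :=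
  {z | z.1 ^ 2 + z.2 ^ 2 < Real.exp (-2 * depAt (out h) 5)}

theorem qd_out (h : Ok N) (z : ℝ × ℝ) : qd (out h) z = z.1 ^ 2 + z.2 ^ 2 := by
  simp [qd, ctr, out]

theorem exp_cut_sub_finite {e : Fin N} (he : e.val ≠ 0) :
    Real.exp (2 * (cut e - Real.log 2)) = 1 / 64 := by
  rw [cut, if_neg he, show (4 : ℝ) = 2 * 2 by norm_num, Real.log_mul (by norm_num) (by norm_num),
    show 2 * (-(Real.log 2 + Real.log 2) - Real.log 2) = -(6 * Real.log 2) by ring, Real.exp_neg,
    show (6 : ℝ) * Real.log 2 = Real.log (2 ^ 6) by rw [Real.log_pow]; push_cast; ring,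
    Real.exp_log (by norm_num)]
  norm_num

theorem small_hole (h : Ok N) {e : Fin N} (he : e.val ≠ 0) :
    Real.exp (2 * depAt e 5) < 1 / 64 := by
  rw [← exp_cut_sub_finite he]
  refine Real.exp_lt_exp.2 ?_
  linarith [depAt_lt_deep h e (show (-5 : ℝ) ≤ 5 by norm_num) le_rfl, deep_le h e]

theorem big_ball (h : Ok N) : (8 * (N : ℝ)) ^ 2 < Real.exp (-2 * depAt (out h) 5) := by
  have hN : (0 : ℝ) < N := by exact_mod_cast (out h).pos
  rw [← Real.exp_log (show (0 : ℝ) < (8 * N) ^ 2 by positivity), Real.exp_lt_exp, Real.log_pow,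
    show (8 : ℝ) * N = 2 * (4 * N) by ring, Real.log_mul (by norm_num) (by positivity)]
  have h1 := depAt_lt_deep h (out h) (show (-5 : ℝ) ≤ 5 by norm_num) le_rfl
  have h2 := deep_le h (out h)
  rw [cut, if_pos (show (out h).val = 0 from rfl)] at h2
  push_cast
  linarith

theorem mem_dom_of (h : Ok N) {z : ℝ × ℝ} (hb : z ∈ ball h)
    (hq : ∀ e : Fin N, e.val ≠ 0 → 1 / 64 ≤ qd e z) : z ∈ dom N := by
  intro e
  split_ifs with he
  · rw [show e = out h from Fin.ext he, qd_out]; exact hb
  · exact (small_hole h he).trans_le (hq e he)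

theorem dom_subset_ball (h : Ok N) : dom N ⊆ ball h := by
  intro z hz
  have := hz (out h)
  rw [if_pos (show (out h).val = 0 from rfl), qd_out] at this
  exact this

/-- A convex region inside the domain. -/
structure Region (N : ℕ) where
  /-- The set. -/
  C : Set (ℝ × ℝ)
  conv : Convex ℝ C
  sub : C ⊆ dom N

theorem convex_ball (h : Ok N) : Convex ℝ (ball h) := by
  intro z hz w hw a b ha hb hab
  simp only [ball, mem_ofPred_eq] at hz hw ⊢
  simp only [Prod.fst_add, Prod.snd_add, Prod.smul_fst, Prod.smul_snd, smul_eq_mul]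
  set c := Real.exp (-2 * depAt (out h) 5)
  obtain rfl : a = 1 - b := by linarith
  have key : ((1 - b) * z.1 + b * w.1) ^ 2 + ((1 - b) * z.2 + b * w.2) ^ 2 ≤
      (1 - b) * (z.1 ^ 2 + z.2 ^ 2) + b * (w.1 ^ 2 + w.2 ^ 2) := by
    nlinarith [mul_nonneg (mul_nonneg ha hb) (add_nonneg (sq_nonneg (z.1 - w.1))
      (sq_nonneg (z.2 - w.2)))]
  rcases hb.eq_or_lt with hb0 | hb0
  · rw [← hb0] at key ⊢
    linarith
  · have h1 := mul_lt_mul_of_pos_left hw hb0
    have h2 := mul_le_mul_of_nonneg_left hz.le ha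
    linarith

/-- The lower region. -/
def low (h : Ok N) : Region N where
  C := {z | z ∈ ball h ∧ z.2 < -(1 / 8)}
  conv := (convex_ball h).inter (convex_halfSpace_lt (LinearMap.snd ℝ ℝ ℝ).isLinear _)
  sub z hz := mem_dom_of h hz.1 fun e _ => by
    have := hz.2
    simp only [qd]
    nlinarith [sq_nonneg (z.1 - ctr e)]

/-- The upper region. -/
def high (h : Ok N) : Region N where
  C := {z | z ∈ ball h ∧ 1 / 8 < z.2}
  conv := (convex_ball h).inter (convex_halfSpace_gt (LinearMap.snd ℝ ℝ ℝ).isLinear _)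
  sub z hz := mem_dom_of h hz.1 fun e _ => by
    have := hz.2
    simp only [qd]
    nlinarith [sq_nonneg (z.1 - ctr e)]

/-- The vertical strip after the puncture `k`. -/
def strip (h : Ok N) (k : ℕ) : Region N where
  C := {z | z ∈ ball h ∧ ∀ e : Fin N, e.val ≠ 0 →
    (e.val ≤ k → ctr e + 1 / 8 < z.1) ∧ (k < e.val → z.1 < ctr e - 1 / 8)}
  conv := by
    refine (convex_ball h).inter ?_
    intro z hz w hw a b ha hb hab e he
    simp only [Prod.fst_add, Prod.smul_fst, smul_eq_mul]
    obtain rfl : a = 1 - b := by linarith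
    refine ⟨fun hk => ?_, fun hk => ?_⟩
    · have h1 := (hz e he).1 hk
      have h2 := (hw e he).1 hk
      rcases hb.eq_or_lt with hb0 | hb0
      · rw [← hb0]; linarith
      · nlinarith [mul_lt_mul_of_pos_left h2 hb0, mul_le_mul_of_nonneg_left h1.le ha]
    · have h1 := (hz e he).2 hk
      have h2 := (hw e he).2 hk
      rcases hb.eq_or_lt with hb0 | hb0
      · rw [← hb0]; linarith
      · nlinarith [mul_lt_mul_of_pos_left h2 hb0, mul_le_mul_of_nonneg_left h1.le ha]
  sub z hz := mem_dom_of h hz.1 fun e he => by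
    obtain ⟨h1, h2⟩ := hz.2 e he
    simp only [qd]
    rcases le_or_gt e.val k with hk | hk
    · nlinarith [h1 hk, sq_nonneg z.2]
    · nlinarith [h2 hk, sq_nonneg z.2]

/-- The lower point in a strip. -/
def gateLow (k : ℕ) : ℝ × ℝ := ((k : ℝ) + 1 / 2, -1)

/-- The upper point in a strip. -/
def gateHigh (k : ℕ) : ℝ × ℝ := ((k : ℝ) + 1 / 2, 1)

theorem gate_mem (h : Ok N) {k : ℕ} (hk : k < N) :
    (gateLow k ∈ (low h).C ∧ gateLow k ∈ (strip h k).C) ∧
      (gateHigh k ∈ (high h).C ∧ gateHigh k ∈ (strip h k).C) := by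
  have hN : (k : ℝ) + 1 ≤ N := by exact_mod_cast hk
  have hb := big_ball h
  have hk0 : (0 : ℝ) ≤ k := Nat.cast_nonneg k
  have hball : ∀ y : ℝ, y ^ 2 = 1 → (((k : ℝ) + 1 / 2, y) : ℝ × ℝ) ∈ ball h := fun y hy => by
    simp only [ball, mem_ofPred_eq, hy]
    nlinarith
  have hstrip : ∀ e : Fin N, e.val ≠ 0 →
      (e.val ≤ k → ctr e + 1 / 8 < (k : ℝ) + 1 / 2) ∧
      (k < e.val → (k : ℝ) + 1 / 2 < ctr e - 1 / 8) := fun e _ => by
    refine ⟨fun he => ?_, fun he => ?_⟩
    · have : ctr e ≤ k := by unfold ctr; exact_mod_cast he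
      linarith
    · have : (k : ℝ) + 1 ≤ ctr e := by unfold ctr; exact_mod_cast he
      linarith
  exact ⟨⟨⟨hball _ (by norm_num), by norm_num [gateLow]⟩, hball _ (by norm_num), hstrip⟩,
    ⟨hball _ (by norm_num), by norm_num [gateHigh]⟩, hball _ (by norm_num), hstrip⟩

theorem base_mem (h : Ok N) : base ∈ (low h).C := by
  have hb := big_ball h
  have hN : (5 : ℝ) ≤ N := by exact_mod_cast h.five
  refine ⟨?_, by norm_num [base]⟩
  simp only [ball, base, mem_ofPred_eq]
  nlinarith

theorem top_mem (h : Ok N) : top ∈ (high h).C := by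
  have hb := big_ball h
  have hN : (5 : ℝ) ≤ N := by exact_mod_cast h.five
  refine ⟨?_, by norm_num [top]⟩
  simp only [ball, top, mem_ofPred_eq]
  nlinarith

theorem isPathConnected_dom (h : Ok N) : IsPathConnected (dom N) := by
  have hz0 := (low h).sub (base_mem h)
  refine ⟨base, hz0, fun {z} hz => ?_⟩
  have hin : ∀ (R : Region N) {p q : ℝ × ℝ}, p ∈ R.C → q ∈ R.C → JoinedIn (dom N) p q :=
    fun R _ _ hp hq => JoinedIn.of_segment_subset ((R.conv.segment_subset hp hq).trans R.sub)
  have hlow : ∀ p ∈ (low h).C, JoinedIn (dom N) base p := fun p hp => hin _ (base_mem h) hp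
  have hstrip : ∀ k < N, ∀ p ∈ (strip h k).C, JoinedIn (dom N) base p := fun k hk p hp =>
    (hlow _ (gate_mem h hk).1.1).trans (hin _ (gate_mem h hk).1.2 hp)
  have hhigh : ∀ p ∈ (high h).C, JoinedIn (dom N) base p := fun p hp =>
    (hstrip 0 (out h).pos _ (gate_mem h (out h).pos).2.2).trans
      (hin _ (gate_mem h (out h).pos).2.1 hp)
  have hball := dom_subset_ball h hz
  have hN : (5 : ℝ) ≤ N := by exact_mod_cast h.five
  by_cases hx : z.1 < 7 / 8
  · refine hstrip 0 (out h).pos z ⟨hball, fun e he => ⟨fun hc => absurd (Nat.le_zero.1 hc) he,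
      fun _ => ?_⟩⟩
    have : (1 : ℝ) ≤ ctr e := by unfold ctr; exact_mod_cast Nat.one_le_iff_ne_zero.2 he
    linarith
  by_cases hx' : (N : ℝ) - 7 / 8 < z.1
  · refine hstrip (N - 1) (by have := h.five; omega) z ⟨hball, fun e he =>
      ⟨fun _ => ?_, fun hc => absurd hc (by have := e.isLt; omega)⟩⟩
    have : ctr e ≤ N - 1 := by rw [le_sub_iff_add_le, ctr]; exact_mod_cast (e.isLt : e.val + 1 ≤ N)
    linarith
  rw [not_lt] at hx hx'
  obtain ⟨y, hy, hgo⟩ : ∃ y : ℝ, ((z.1, y) ∈ (low h).C ∨ (z.1, y) ∈ (high h).C) ∧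
      ∀ s ∈ segment ℝ z.2 y, z.2 ^ 2 ≤ s ^ 2 ∧ s ^ 2 ≤ (max |z.2| 1) ^ 2 := by
    have hb := big_ball h
    rcases le_or_gt z.2 0 with hy | hy
    · refine ⟨min z.2 (-1), Or.inl ⟨?_, ?_⟩, fun s hs => ?_⟩
      · simp only [ball, mem_ofPred_eq] at hball ⊢
        rcases le_total z.2 (-1) with h1 | h1
        · rwa [min_eq_left h1]
        · rw [min_eq_right h1]; nlinarith
      · simp only
        linarith [min_le_right z.2 (-1)]
      · rw [segment_eq_uIcc, uIcc_of_ge (min_le_left _ _), mem_Icc] at hs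
        refine ⟨by nlinarith, sq_le_sq' ?_ ?_⟩
        · rcases min_choice z.2 (-1) with h1 | h1 <;> rw [h1] at hs <;>
            linarith [le_max_left |z.2| 1, le_max_right |z.2| 1, neg_abs_le z.2]
        · linarith [le_max_right |z.2| 1]
    · refine ⟨max z.2 1, Or.inr ⟨?_, ?_⟩, fun s hs => ?_⟩
      · simp only [ball, mem_ofPred_eq] at hball ⊢
        rcases le_total z.2 1 with h1 | h1
        · rw [max_eq_right h1]; nlinarith
        · rwa [max_eq_left h1]
      · simp only
        linarith [le_max_right z.2 1]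
      · rw [segment_eq_uIcc, uIcc_of_le (le_max_left _ _), mem_Icc] at hs
        refine ⟨by nlinarith, sq_le_sq' (by linarith [le_max_right |z.2| 1]) ?_⟩
        rw [abs_of_pos hy]
        exact hs.2
  have hvert : JoinedIn (dom N) z (z.1, y) := by
    refine JoinedIn.of_segment_subset fun p hp => ?_
    have hp1 : p.1 = z.1 := by
      obtain ⟨a, b, -, -, hab, rfl⟩ := hp
      simp only [Prod.fst_add, Prod.smul_fst, smul_eq_mul]
      linear_combination z.1 * hab
    have hp2 : p.2 ∈ segment ℝ z.2 y := by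
      obtain ⟨a, b, ha, hb, hab, rfl⟩ := hp
      exact ⟨a, b, ha, hb, hab, rfl⟩
    obtain ⟨hlo, hup⟩ := hgo _ hp2
    intro e
    split_ifs with he
    · have hb := big_ball h
      rw [show e = out h from Fin.ext he, qd_out, hp1]
      simp only [ball, mem_ofPred_eq] at hball
      rcases max_choice |z.2| 1 with h1 | h1 <;> rw [h1] at hup
      · rw [sq_abs] at hup; linarith
      · nlinarith
    · have h1 := hz e
      rw [if_neg he] at h1
      refine h1.trans_le ?_
      simp only [qd, hp1]
      linarith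
  rcases hy with hy | hy
  · exact (hlow _ hy).trans hvert.symm
  · exact (hhigh _ hy).trans hvert.symm

/-- The point at radius `r` around an end, at angle parameter `s`. -/
def ringPt (e : Fin N) (r s : ℝ) : ℝ × ℝ :=
  (ctr e + sgn e * (r * Real.sin (2 * Real.pi * s)), -(r * Real.cos (2 * Real.pi * s)))

theorem circlePt_eq_ringPt (e : Fin N) (t s : ℝ) :
    circlePt e t s = ringPt e (radius e t) s := rfl

/-- The segment from the base point to the bottom of a circle. -/
def spokePt (e : Fin N) (r s : ℝ) : ℝ × ℝ :=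
  (1 - s) • base + s • ringPt e r 0

/-- The loop made of a spoke, a circle and the spoke back. -/
def loopPt (e : Fin N) (r s : ℝ) : ℝ × ℝ :=
  if s ≤ 1 / 3 then spokePt e r (3 * s)
  else if s ≤ 2 / 3 then ringPt e r (3 * s - 1)
  else spokePt e r (3 - 3 * s)

/-- The radius of the standard circle of an end. -/
def stdRad (e : Fin N) : ℝ := if e.val = 0 then 4 * N else 1 / 4

theorem ringPt_zero (e : Fin N) (r : ℝ) : ringPt e r 0 = (ctr e, -r) := by simp [ringPt]

theorem continuous_loopPt (e : Fin N) : Continuous fun p : ℝ × ℝ => loopPt e p.1 p.2 := by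
  have hr : Continuous fun p : ℝ × ℝ => ringPt e p.1 (3 * p.2 - 1) := by unfold ringPt; fun_prop
  have hs : Continuous fun p : ℝ × ℝ => spokePt e p.1 (3 * p.2) := by
    unfold spokePt ringPt; fun_prop
  have hs' : Continuous fun p : ℝ × ℝ => spokePt e p.1 (3 - 3 * p.2) := by
    unfold spokePt ringPt; fun_prop
  refine Continuous.if_le hs (Continuous.if_le hr hs' continuous_snd continuous_const ?_)
    continuous_snd continuous_const ?_
  · intro p hp
    rw [hp]
    norm_num [spokePt, ringPt]
  · intro p hp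
    rw [hp]
    norm_num [spokePt, ringPt]

theorem sgn_radius (h : Ok N) (e : Fin N) {t : ℝ} (ht : t ∈ Icc (-5 : ℝ) 5) :
    (e.val = 0 → stdRad e < radius e t ∧ radius e t ^ 2 ≤ Real.exp (-2 * depAt e t)) ∧
      (e.val ≠ 0 → radius e t < stdRad e) := by
  have h1 := depAt_lt_deep h e ht.1 ht.2
  have h2 := deep_lt_cut h e
  have hN : (0 : ℝ) < N := by exact_mod_cast e.pos
  unfold radius sgn stdRad
  constructor <;> intro he
  · simp only [he, if_true]
    rw [cut, if_pos he] at h2
    refine ⟨?_, le_of_eq ?_⟩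
    · rw [← Real.exp_log (show (0 : ℝ) < 4 * N by positivity), Real.exp_lt_exp]
      linarith
    · rw [← Real.exp_nat_mul]
      congr 1
      push_cast
      ring
  · simp only [he, if_false, one_mul]
    rw [cut, if_neg he] at h2
    rw [← Real.exp_log (show (0 : ℝ) < 1 / 4 by norm_num), Real.exp_lt_exp, one_div, Real.log_inv]
    linarith

theorem ring_sq (e : Fin N) (r s : ℝ) :
    qd e (ringPt e r s) = r ^ 2 := by
  simp only [qd, ringPt]
  linear_combination (r ^ 2 * Real.sin (2 * Real.pi * s) ^ 2) * sgn_sq e +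
    r ^ 2 * Real.sin_sq_add_cos_sq (2 * Real.pi * s)

theorem depAt_finite {e i : Fin N} (he : e.val ≠ 0) (hi : i.val ≠ 0) (t : ℝ) :
    depAt i t = depAt e t := by
  simp [depAt, off, cst, grow, cut, he, hi]

theorem sgn_cases (e : Fin N) : (e.val = 0 ∧ sgn e = -1) ∨ (e.val ≠ 0 ∧ sgn e = 1) := by
  unfold sgn
  rcases eq_or_ne e.val 0 with he | he <;> simp [he]

/-- Between the middle circle and the standard one all loops stay in the domain. -/
theorem loopPt_mem (h : Ok N) (e : Fin N) {r : ℝ} (hr : r ∈ uIcc (radius e 0) (stdRad e)) (s : ℝ)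
    (hs : s ∈ Icc (0 : ℝ) 1) : loopPt e r s ∈ dom N := by
  obtain ⟨ho, hf⟩ := sgn_radius h e (show (0 : ℝ) ∈ Icc (-5 : ℝ) 5 by norm_num)
  have hN : (5 : ℝ) ≤ N := by exact_mod_cast h.five
  have hb := big_ball h
  have hceN : ctr e ≤ N := by unfold ctr; exact_mod_cast e.isLt.le
  have hce0 : 0 ≤ ctr e := Nat.cast_nonneg _
  have hr0 : 0 < radius e 0 := Real.exp_pos _
  have hrpos : 0 < r := by
    have hstd : 0 < stdRad e := by unfold stdRad; split_ifs <;> linarith
    rcases mem_uIcc.1 hr with h1 | h1 <;> linarith [h1.1]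
  have hspoke : ∀ u ∈ Icc (0 : ℝ) 1, spokePt e r u ∈ dom N := by
    intro u hu
    rw [spokePt, ringPt_zero]
    intro i
    rcases sgn_cases e with ⟨he, -⟩ | ⟨he, -⟩
    · obtain ⟨ho1, ho2⟩ := ho he
      rw [uIcc_of_ge ho1.le] at hr
      have hs4 : (4 : ℝ) * N = stdRad e := by simp [stdRad, he]
      have hy : 1 ≤ (1 - u) + u * r := by nlinarith [hr.1, hu.1]
      have hy2 : (1 - u) + u * r ≤ r := by nlinarith [hr.1, hu.2]
      split_ifs with hi
      · rw [show i = out h from Fin.ext hi, qd_out]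
        have he' : e = out h := Fin.ext he
        have h5 := Real.exp_lt_exp.2 (show -2 * depAt e 0 < -2 * depAt e 5 by
          linarith [depAt_lt h e (show (0 : ℝ) < 5 by norm_num) le_rfl])
        subst he'
        simp only [base, show ctr (out h) = 0 by simp [ctr, out], Prod.fst_add, Prod.snd_add,
          Prod.smul_fst, Prod.smul_snd, smul_eq_mul, mul_zero, add_zero]
        nlinarith [pow_le_pow_left₀ (by linarith : (0 : ℝ) ≤ 1 - u + u * r) (hy2.trans hr.2) 2]
      · refine (small_hole h hi).trans_le ?_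
        simp only [qd, base, Prod.fst_add, Prod.snd_add, Prod.smul_fst, Prod.smul_snd,
          smul_eq_mul]
        nlinarith [sq_nonneg ((1 - u) * 0 + u * ctr e - ctr i)]
    · have hf1 := hf he
      rw [uIcc_of_le hf1.le] at hr
      have hs4 : stdRad e = 1 / 4 := by simp [stdRad, he]
      have hy : r ≤ (1 - u) + u * r := by nlinarith [hr.2, hu.2]
      have hy2 : (1 - u) + u * r ≤ 1 := by nlinarith [hr.2, hu.1]
      split_ifs with hi
      · rw [show i = out h from Fin.ext hi, qd_out]
        simp only [base, Prod.fst_add, Prod.snd_add, Prod.smul_fst, Prod.smul_snd, smul_eq_mul]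
        have : u * ctr e ≤ N := by nlinarith [hu.1, hu.2]
        nlinarith [mul_nonneg hu.1 hce0]
      · have h5 : Real.exp (2 * depAt i 5) < r ^ 2 := by
          rw [depAt_finite he hi]
          have h6 := depAt_lt h e (show (0 : ℝ) < 5 by norm_num) le_rfl
          have h7 : Real.exp (2 * depAt e 0) = radius e 0 ^ 2 := by
            rw [radius, sgn, if_neg he, ← Real.exp_nat_mul]; simp
          have h8 : radius e 0 ^ 2 ≤ r ^ 2 := pow_le_pow_left₀ hr0.le hr.1 2
          linarith [Real.exp_lt_exp.2 (show 2 * depAt e 5 < 2 * depAt e 0 by linarith)]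
        refine h5.trans_le ?_
        simp only [qd, base, Prod.fst_add, Prod.snd_add, Prod.smul_fst, Prod.smul_snd,
          smul_eq_mul]
        nlinarith [sq_nonneg ((1 - u) * 0 + u * ctr e - ctr i), hr.2]
  have hring : ∀ u, ringPt e r u ∈ dom N := by
    intro u i
    rcases sgn_cases e with ⟨he, -⟩ | ⟨he, -⟩
    · obtain ⟨ho1, ho2⟩ := ho he
      rw [uIcc_of_ge ho1.le] at hr
      have hs4 : (4 : ℝ) * N = stdRad e := by simp [stdRad, he]
      split_ifs with hi
      · rw [show i = e from Fin.ext (hi.trans he.symm), ring_sq]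
        refine (pow_le_pow_left₀ hrpos.le hr.2 2).trans_lt (ho2.trans_lt (Real.exp_lt_exp.2 ?_))
        linarith [depAt_lt h e (show (0 : ℝ) < 5 by norm_num) le_rfl]
      · refine (small_hole h hi).trans_le ?_
        have hci : ctr i ≤ N := by unfold ctr; exact_mod_cast i.isLt.le
        have hci0 : 0 ≤ ctr i := Nat.cast_nonneg _
        have h1 := ring_sq e r u
        have hc : ctr e = 0 := by simp [ctr, he]
        simp only [qd, hc, sub_zero] at h1 ⊢
        set P := ringPt e r u
        nlinarith [sq_nonneg (P.1 - 2 * ctr i), sq_nonneg P.2, hr.1,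
          mul_le_mul hci hci hci0 (Nat.cast_nonneg N),
          mul_le_mul (show 4 * (N : ℝ) ≤ r by linarith [hr.1]) (show 4 * (N : ℝ) ≤ r by linarith [hr.1])
            (by positivity) hrpos.le]
    · have hf1 := hf he
      rw [uIcc_of_le hf1.le] at hr
      have hs4 : stdRad e = 1 / 4 := by simp [stdRad, he]
      have h1 := ring_sq e r u
      simp only [qd] at h1
      set P := ringPt e r u
      have hP : |P.1 - ctr e| ≤ 1 / 4 := by
        rw [← Real.sqrt_sq_eq_abs, Real.sqrt_le_iff]
        exact ⟨by norm_num, by nlinarith [sq_nonneg P.2, hr.2]⟩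
      have hP2 : P.2 ^ 2 ≤ 1 / 16 := by nlinarith [sq_nonneg (P.1 - ctr e), hr.2]
      rw [abs_le] at hP
      split_ifs with hi
      · rw [show i = out h from Fin.ext hi, qd_out]
        have : |P.1| ≤ (N : ℝ) + 1 := abs_le.2 ⟨by linarith, by linarith⟩
        nlinarith [sq_abs P.1, abs_nonneg P.1]
      · rcases eq_or_ne i e with rfl | hie
        · have h6 := depAt_lt h i (show (0 : ℝ) < 5 by norm_num) le_rfl
          have h7 : Real.exp (2 * depAt i 0) = radius i 0 ^ 2 := by
            rw [radius, sgn, if_neg he, ← Real.exp_nat_mul]; simp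
          have h8 : radius i 0 ^ 2 ≤ r ^ 2 := pow_le_pow_left₀ hr0.le hr.1 2
          rw [show qd i P = r ^ 2 from ring_sq i r u]
          linarith [Real.exp_lt_exp.2 (show 2 * depAt i 5 < 2 * depAt i 0 by linarith)]
        · refine (small_hole h hi).trans_le ?_
          have hd : 1 ≤ |ctr e - ctr i| := by
            have : (1 : ℤ) ≤ |(e.val : ℤ) - i.val| := by
              refine Int.one_le_abs (sub_ne_zero.2 fun hh => hie (Fin.ext ?_))
              omega
            unfold ctr
            exact_mod_cast this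
          simp only [qd]
          rcases le_abs'.1 hd with h2 | h2 <;> nlinarith [sq_nonneg P.2]
  unfold loopPt
  split_ifs with h1 h2
  · exact hspoke _ ⟨by linarith [hs.1], by linarith⟩
  · exact hring _
  · exact hspoke _ ⟨by linarith [hs.2], by linarith⟩

theorem loopPt_ends (e : Fin N) (r : ℝ) : loopPt e r 0 = base ∧ loopPt e r 1 = base := by
  constructor <;> norm_num [loopPt, spokePt]

/-- The loops of intermediate radius. -/
def loopPath (h : Ok N) (e : Fin N) {r : ℝ} (hr : r ∈ uIcc (radius e 0) (stdRad e)) :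
    Path (⟨base, (low h).sub (base_mem h)⟩ : dom N) ⟨base, (low h).sub (base_mem h)⟩ where
  toFun s := ⟨loopPt e r s, loopPt_mem h e hr s s.2⟩
  continuous_toFun :=
    ((continuous_loopPt e).comp (continuous_const.prodMk continuous_subtype_val)).subtype_mk _
  source' := Subtype.ext (by simpa using (loopPt_ends e r).1)
  target' := Subtype.ext (by simpa using (loopPt_ends e r).2)

/-- All the loops of an end are homotopic to the standard one. -/
theorem loopPath_homotopic (h : Ok N) (e : Fin N) :
    Path.Homotopic (loopPath h e left_mem_uIcc) (loopPath h e right_mem_uIcc) := by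
  have hmem : ∀ τ : I, (1 - (τ : ℝ)) * radius e 0 + τ * stdRad e ∈
      uIcc (radius e 0) (stdRad e) := fun τ => by
    rw [← segment_eq_uIcc]
    exact ⟨1 - τ, τ, by linarith [τ.2.2], τ.2.1, by ring, rfl⟩
  refine ⟨{
    toFun := fun p => ⟨loopPt e ((1 - (p.1 : ℝ)) * radius e 0 + p.1 * stdRad e) p.2,
      loopPt_mem h e (hmem p.1) p.2 p.2.2⟩
    continuous_toFun := ((continuous_loopPt e).comp (Continuous.prodMk
      (by fun_prop) (continuous_subtype_val.comp continuous_snd))).subtype_mk _
    map_zero_left := fun s => Subtype.ext (by simp [loopPath])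
    map_one_left := fun s => Subtype.ext (by simp [loopPath])
    prop' := fun τ s hs => ?_ }⟩
  rcases hs with rfl | rfl
  · exact Subtype.ext (by simp [loopPath, (loopPt_ends e _).1])
  · exact Subtype.ext (by simp [loopPath, (loopPt_ends e _).2])

end

end Vale.Agent.P255.Build
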