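import Vale.Agent.P255.Piece.Potential

/-!
The metric of the piece: the twisted product over the conformal planar metric, replaced in the
ends by the collar metric.
-/

open Set Filter
open scoped ContDiff Topology

namespace Vale.Agent.P255.Build

set_option maxSynthPendingDepth 3

noncomputable section

variable {N : ℕ}

/-- The differential of the angle around a centre. -/
def dang (e : Fin N) (z : ℝ × ℝ) : ℝ × ℝ →L[ℝ] ℝ :=
  lin (-z.2 / qd e z) ((z.1 - ctr e) / qd e z)

/-- The differential of the logarithm of the distance to a centre. -/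
def drad (e : Fin N) (z : ℝ × ℝ) : ℝ × ℝ →L[ℝ] ℝ :=
  lin ((z.1 - ctr e) / qd e z) (z.2 / qd e z)

/-- The closed form prescribing the periods. -/
def om (N : ℕ) (z : ℝ × ℝ) : ℝ × ℝ →L[ℝ] ℝ :=
  (eps N / (2 * Real.pi)) • ∑ i ∈ fins N, dang i z

/-- The connection form. -/
def alpha (N : ℕ) (y : E3) : E3 →L[ℝ] ℝ := fibreProj + (om N (planeProj y)).comp planeProj

/-- The projection keeping the plane and replacing the last coordinate by the connection form. -/
def straighten (N : ℕ) (y : E3) : E3 →L[ℝ] E3 :=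
  (ContinuousLinearMap.fst ℝ ℝ (ℝ × ℝ)).prod
    (((ContinuousLinearMap.fst ℝ ℝ ℝ).comp (ContinuousLinearMap.snd ℝ ℝ (ℝ × ℝ))).prod (alpha N y))

/-- The twisted product metric. -/
def coreMetric (N : ℕ) (y : E3) : E3 →L[ℝ] E3 →L[ℝ] ℝ :=
  (confMetric (conf N) y).bilinearComp (straighten N y) (straighten N y)

/-- The inverse differential of the parametrisation of an end. -/
def frame (e : Fin N) (y : E3) : E3 →L[ℝ] E3 :=
  ((-(sgn e * circ e (planeProj y))) • (drad e (planeProj y)).comp planeProj).prod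
    ((alpha N y - (eps N * (sgn e / (2 * Real.pi))) • (dang e (planeProj y)).comp planeProj).prod
      ((sgn e / (2 * Real.pi)) • (dang e (planeProj y)).comp planeProj))

/-- The collar metric carried to an end. -/
def endMetric (e : Fin N) (y : E3) : E3 →L[ℝ] E3 →L[ℝ] ℝ :=
  (latMetric N (time e (planeProj y), 0, 0)).bilinearComp (frame e y) (frame e y)

open Classical in
/-- The metric of the piece. -/
def pieceMetric (N : ℕ) (y : E3) : E3 →L[ℝ] E3 →L[ℝ] ℝ :=
  coreMetric N y +
    ∑ e : Fin N, if planeProj y ∈ zone e (depAt e (-4)) then endMetric e y - coreMetric N y else 0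

theorem pieceMetric_fiber (N : ℕ) (x y θ θ' : ℝ) :
    pieceMetric N (x, y, θ) = pieceMetric N (x, y, θ') := rfl

theorem sgn_sq (e : Fin N) : sgn e * sgn e = 1 := by unfold sgn; split_ifs <;> norm_num

theorem sgn_ne (e : Fin N) : sgn e ≠ 0 := fun h => by simpa [h] using sgn_sq e

theorem latMap_apply (N : ℕ) (v : E3) :
    latMap N v = (v.1, v.2.1 + eps N * v.2.2, v.2.2 - eps N * v.2.1) := rfl

theorem collarForm_apply (A B C : ℝ) (v w : E3) :
    collarForm A B C v w =
      v.1 * w.1 + A * (v.2.1 * w.2.1) + B * (v.2.2 * w.2.2) +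
        C * (v.2.1 * w.2.2 + v.2.2 * w.2.1) := by
  simp [collarForm]
  ring

theorem alpha_apply (N : ℕ) (y v : E3) :
    alpha N y v = v.2.2 + om N (planeProj y) (planeProj v) := rfl

theorem coreMetric_apply (N : ℕ) (y v w : E3) :
    coreMetric N y v w = Real.exp (2 * conf N (y.1, y.2.1)) * (v.1 * w.1 + v.2.1 * w.2.1) +
      alpha N y v * alpha N y w := by
  simp [coreMetric, straighten, confMetric_apply]

theorem lev_depAt (h : Ok N) (e : Fin N) {t : ℝ} (ht : t ≤ 5) :
    Real.exp (off e + kap N * depAt e t) = lev N t := by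
  rw [depAt, mul_div_cancel₀ _ (kap_pos h).ne', add_sub_cancel, Real.exp_log (lev_pos h ht)]

theorem time_depAt (h : Ok N) {e : Fin N} {z : ℝ × ℝ} {t : ℝ} (ht : t ≤ 5)
    (hz : dep e z = depAt e t) : time e z = t := by
  have hr := (ratio_pos (N := N)).ne'
  have hs := (slope_pos h).ne'
  rw [time, circ, hz, lev_depAt h e ht, lev]
  field_simp
  ring

theorem time_gt (h : Ok N) {e : Fin N} {z : ℝ × ℝ} {t : ℝ} (ht : t ≤ 5)
    (hz : dep e z < depAt e t) : t < time e z := by
  have h1 : circ e z < lev N t := by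
    rw [← lev_depAt h e ht, circ]
    exact Real.exp_lt_exp.2 (by nlinarith [kap_pos h])
  rw [lev] at h1
  have h2 : circ e z / ratio N < wval N + slope N * (-3 - t) := by
    rw [div_lt_iff₀ ratio_pos]; linarith
  rw [time, lt_sub_comm, div_lt_iff₀ (slope_pos h)]
  linarith

theorem time_lt (h : Ok N) {e : Fin N} {z : ℝ × ℝ} {t : ℝ} (ht : t ≤ 5)
    (hz : depAt e t < dep e z) : time e z < t := by
  have h1 : lev N t < circ e z := by
    rw [← lev_depAt h e ht, circ]
    exact Real.exp_lt_exp.2 (by nlinarith [kap_pos h])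
  rw [lev] at h1
  have h2 : wval N + slope N * (-3 - t) < circ e z / ratio N := by
    rw [lt_div_iff₀ ratio_pos]; linarith
  rw [time, sub_lt_comm, lt_div_iff₀ (slope_pos h)]
  linarith

theorem depAt_le_deep (h : Ok N) (e : Fin N) {t : ℝ} (ht : -5 ≤ t) (ht' : t ≤ 5) :
    depAt e t ≤ cut e + Real.log 2 := by
  linarith [depAt_lt_deep h e ht ht', deep_lt_cut h e, Real.log_pos (show (1 : ℝ) < 2 by norm_num)]

theorem time_mem (h : Ok N) {e : Fin N} {z : ℝ × ℝ} (hz : z ∈ dom N)
    (hz' : z ∈ zone e (depAt e (-5))) : time e z ∈ Ioo (-5 : ℝ) 5 :=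
  ⟨time_gt h (by norm_num) hz'.2, time_lt h le_rfl (((mem_dom_iff h).1 hz).2 e hz'.1)⟩

/-- On the linear part of a collar the two metrics agree. -/
theorem endMetric_eq_core (h : Ok N) {e : Fin N} {y : E3} (hy : planeProj y ∈ dom N)
    (hz : planeProj y ∈ zone e (depAt e (-5))) (hd : depAt e (-3) ≤ dep e (planeProj y)) :
    endMetric e y = coreMetric N y := by
  set z := planeProj y with hzdef
  have htm : time e z ≤ -3 := by
    rcases hd.eq_or_lt with hd | hd
    · exact (time_depAt h (by norm_num) hd.symm).le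
    · exact (time_lt h (by norm_num) hd).le
  have hexp := exp_two_conf h (zone_mono e (depAt_lt_deep h e le_rfl (by norm_num)).le hz)
  have hw : (1 + eps N ^ 2) * warp N (1 - time e z) = 2 * Real.pi * circ e z := by
    rw [h.good.warp_linear _ (by linarith)]
    have hr := (ratio_pos (N := N)).ne'
    have hs := (slope_pos h).ne'
    have e1 : warp N 4 + deriv (warp N) 4 * (1 - time e z - 4) = circ e z / ratio N := by
      show wval N + slope N * (1 - time e z - 4) = _
      unfold time
      field_simp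
      ring
    rw [e1, ratio]
    have : (1 + eps N ^ 2) ≠ 0 := by positivity
    field_simp
  have hπ := Real.pi_ne_zero
  have hq := hz.1.ne'
  have hq2 : (y.1 - ctr e) ^ 2 + y.2.1 ^ 2 = qd e z := rfl
  have hW : warp N (1 - time e z) = 2 * Real.pi * circ e z / (1 + eps N ^ 2) := by
    rw [eq_div_iff (by positivity), ← hw]; ring
  have hexp' : Real.exp (2 * conf N (y.1, y.2.1)) = circ e z ^ 2 / qd e z := hexp
  refine ContinuousLinearMap.ext fun v => ContinuousLinearMap.ext fun w => ?_
  simp only [endMetric, coreMetric_apply, ContinuousLinearMap.bilinearComp_apply, latMetric,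
    collarMetric, latMap_apply, hexp', ← hzdef, show time e z < -(3 / 2 : ℝ) by linarith, ↓reduceIte,
    collarForm_apply, hW]
  simp only [frame, dang, drad, alpha_apply, ← hzdef, ContinuousLinearMap.prod_apply,
    ContinuousLinearMap.comp_apply, FunLike.coe_sub, FunLike.coe_smul, Pi.sub_apply, Pi.smul_apply,
    smul_eq_mul, lin_apply, planeProj_apply]
  have : (1 + eps N ^ 2) ≠ 0 := by positivity
  field_simp
  simp only [hzdef, planeProj_apply] at *
  have hs := sgn_sq e
  linear_combination
    (4 * Real.pi ^ 2 * circ e (y.1, y.2.1) ^ 2 * (1 + eps N ^ 2) ^ 2 *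
      (v.1 * w.1 + v.2.1 * w.2.1) * ((y.1 - ctr e) ^ 2 + y.2.1 ^ 2)) * hs +
    (4 * Real.pi ^ 2 * circ e (y.1, y.2.1) ^ 2 * (1 + eps N ^ 2) ^ 2 *
      (v.1 * w.1 + v.2.1 * w.2.1)) * hq2

theorem eventually_notMem_zone (h : Ok N) {z : ℝ × ℝ} (hz : z ∈ dom N) {e : Fin N} {a b : ℝ}
    (hab : a < b) (hb : z ∉ zone e b) : ∀ᶠ w in 𝓝 z, w ∉ zone e a := by
  by_cases he : e.val = 0
  · have hlt : qd e z < Real.exp (-2 * a) := by
      rcases (qd_nonneg e z).eq_or_lt with hq | hq
      · rw [← hq]; exact Real.exp_pos _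
      · have h2 : a < dep e z := hab.trans_le (not_lt.1 fun hc => hb ⟨hq, hc⟩)
        simpa [he] using (lt_dep_iff hq).1 h2
    filter_upwards [(isOpen_lt (continuous_qd e) continuous_const).mem_nhds hlt] with w hw hc
    have h3 := (dep_lt_iff hc.1).1 hc.2
    rw [if_pos he] at h3
    exact absurd h3 (not_lt.2 (le_of_lt hw))
  · have hq : 0 < qd e z := ((mem_dom_iff h).1 hz).1 e he
    have h2 : a < dep e z := hab.trans_le (not_lt.1 fun hc => hb ⟨hq, hc⟩)
    have hlt : Real.exp (2 * a) < qd e z := by simpa [he] using (lt_dep_iff hq).1 h2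
    filter_upwards [(isOpen_lt continuous_const (continuous_qd e)).mem_nhds hlt] with w hw hc
    have h3 := (dep_lt_iff hc.1).1 hc.2
    rw [if_neg he] at h3
    exact absurd h3 (not_lt.2 (le_of_lt hw))

theorem pieceMetric_of_zone (h : Ok N) {e : Fin N} {y : E3}
    (hy : planeProj y ∈ dom N) (hz : planeProj y ∈ zone e (depAt e (-5))) :
    pieceMetric N y = endMetric e y := by
  classical
  have hsum : ∀ i : Fin N, i ≠ e → planeProj y ∉ zone i (depAt i (-4)) := fun i hi hc =>
    zone_disjoint (Ne.symm hi) (zone_mono e (depAt_le_deep h e le_rfl (by norm_num)) hz)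
      (zone_mono i (depAt_le_deep h i (by norm_num) (by norm_num)) hc)
  rw [pieceMetric, Finset.sum_eq_single e (fun i _ hi => if_neg (hsum i hi)) (by simp)]
  split_ifs with hc
  · abel
  · rw [add_zero, endMetric_eq_core h hy hz]
    exact ((depAt_lt h e (by norm_num) (by norm_num)).le.trans
      (not_lt.1 fun hlt => hc ⟨hz.1, hlt⟩))

theorem pieceMetric_eventually_core (h : Ok N) {y : E3} (hy : planeProj y ∈ dom N)
    (hout : ∀ e : Fin N, planeProj y ∉ zone e (depAt e (-4))) :
    pieceMetric N =ᶠ[𝓝 y] coreMetric N := by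
  classical
  have h1 : ∀ᶠ w in 𝓝 (planeProj y), w ∈ dom N ∧ ∀ e : Fin N, w ∉ zone e (depAt e (-3)) :=
    (show ∀ᶠ w in 𝓝 (planeProj y), w ∈ dom N from isOpen_dom.mem_nhds hy).and (eventually_all.2 fun e =>
      eventually_notMem_zone h hy (depAt_lt h e (by norm_num) (by norm_num)) (hout e))
  filter_upwards [planeProj.continuous.continuousAt.eventually h1] with y' ⟨hd, hn⟩
  rw [pieceMetric, Finset.sum_eq_zero, add_zero]
  intro e _
  split_ifs with hc
  · rw [endMetric_eq_core h hd (zone_mono e (depAt_lt h e (by norm_num) (by norm_num)).le hc)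
      (not_lt.1 fun hlt => hn e ⟨hc.1, hlt⟩), sub_self]
  · rfl

theorem contDiffAt_clm_apply {D X F : Type*} [NormedAddCommGroup D] [NormedSpace ℝ D]
    [NormedAddCommGroup X] [NormedSpace ℝ X] [FiniteDimensional ℝ X] [NormedAddCommGroup F]
    [NormedSpace ℝ F] {m : WithTop ℕ∞} {f : D → X →L[ℝ] F} {x : D}
    (h : ∀ v, ContDiffAt ℝ m (fun y => f y v) x) : ContDiffAt ℝ m f x := by
  let d := Module.finrank ℝ X
  have hd : d = Module.finrank ℝ (Fin d → ℝ) := (Module.finrank_fin_fun ℝ).symm
  let e₁ := ContinuousLinearEquiv.ofFinrankEq hd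
  let e₂ := (e₁.arrowCongr (1 : F ≃L[ℝ] F)).trans (ContinuousLinearEquiv.piRing (Fin d))
  rw [← Function.id_comp f, ← e₂.symm_comp_self]
  exact e₂.symm.contDiff.contDiffAt.comp x (contDiffAt_pi.2 fun i => h _)

theorem contDiffAt_dang {m : WithTop ℕ∞} (e : Fin N) {z : ℝ × ℝ} (hz : 0 < qd e z) :
    ContDiffAt ℝ m (dang e) z := by
  have h1 : ContDiffAt ℝ m (qd e) z := by unfold qd; fun_prop
  exact ((contDiffAt_snd.neg.div h1 hz.ne').smul contDiffAt_const).add
    (((contDiffAt_fst.sub contDiffAt_const).div h1 hz.ne').smul contDiffAt_const)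

theorem contDiffAt_drad {m : WithTop ℕ∞} (e : Fin N) {z : ℝ × ℝ} (hz : 0 < qd e z) :
    ContDiffAt ℝ m (drad e) z := by
  have h1 : ContDiffAt ℝ m (qd e) z := by unfold qd; fun_prop
  exact (((contDiffAt_fst.sub contDiffAt_const).div h1 hz.ne').smul contDiffAt_const).add
    ((contDiffAt_snd.div h1 hz.ne').smul contDiffAt_const)

theorem contDiffAt_circ (e : Fin N) {z : ℝ × ℝ} (hz : 0 < qd e z) :
    ContDiffAt ℝ ∞ (circ e) z :=
  (contDiffAt_const.add (contDiffAt_const.mul (contDiffAt_const.mul (contDiffAt_lg e hz)))).exp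

theorem contDiffAt_alpha (h : Ok N) {y : E3} (hy : planeProj y ∈ dom N) (v : E3) :
    ContDiffAt ℝ ∞ (fun y => alpha N y v) y := by
  have h1 : ContDiffAt ℝ ∞ (fun y : E3 => om N (planeProj y)) y :=
    ((ContDiffAt.sum fun i hi => contDiffAt_dang i
      (((mem_dom_iff h).1 hy).1 i (mem_fins.1 hi))).const_smul _).comp y planeProj.contDiff.contDiffAt
  simp only [alpha_apply]
  exact contDiffAt_const.add (h1.clm_apply contDiffAt_const)

theorem contDiffAt_coreMetric (h : Ok N) {y : E3} (hy : planeProj y ∈ dom N) (v w : E3) :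
    ContDiffAt ℝ ∞ (fun y => coreMetric N y v w) y := by
  simp only [coreMetric_apply]
  have h1 : ContDiffAt ℝ ∞ (fun y : E3 => conf N (planeProj y)) y :=
    ((contDiffOn_conf h).contDiffAt (isOpen_dom.mem_nhds hy)).comp y planeProj.contDiff.contDiffAt
  exact ((contDiffAt_const.mul h1).exp.mul contDiffAt_const).add
    ((contDiffAt_alpha h hy v).mul (contDiffAt_alpha h hy w))

theorem contDiffOn_latMetric (h : Ok N) : ContDiffOn ℝ ∞ (latMetric N) collarSet := by
  refine contDiffOn_clm_apply.2 fun v => contDiffOn_clm_apply.2 fun w => ?_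
  have h1 : ContDiffOn ℝ ∞ (fun y => collarMetric N (latMap N y)) collarSet :=
    h.good.metric.smooth.comp (latMap N).contDiff.contDiffOn fun y hy => hy
  exact (h1.clm_apply contDiffOn_const).clm_apply contDiffOn_const

theorem contDiffAt_endMetric (h : Ok N) {e : Fin N} {y : E3} (hy : planeProj y ∈ dom N)
    (hz : planeProj y ∈ zone e (depAt e (-5))) (v w : E3) :
    ContDiffAt ℝ ∞ (fun y => endMetric e y v w) y := by
  have hπ := planeProj.contDiff.contDiffAt (n := (∞ : WithTop ℕ∞)) (x := y)
  have hcirc : ContDiffAt ℝ ∞ (fun y : E3 => circ e (planeProj y)) y :=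
    (contDiffAt_circ e hz.1).comp y hπ
  have ht : ContDiffAt ℝ ∞ (fun y : E3 => ((time e (planeProj y), 0, 0) : E3)) y := by
    refine ContDiffAt.prodMk ?_ contDiffAt_const
    unfold time
    exact contDiffAt_const.sub (((hcirc.div_const _).sub contDiffAt_const).div_const _)
  have hG : ContDiffAt ℝ ∞ (fun y : E3 => latMetric N (time e (planeProj y), 0, 0)) y := by
    have hopen : IsOpen collarSet := isOpen_Ioo.preimage continuous_fst
    have hlat : ContDiffAt ℝ ∞ (latMetric N) (time e (planeProj y), 0, 0) :=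
      (contDiffOn_latMetric h).contDiffAt
        (hopen.mem_nhds (show ((time e (planeProj y), 0, 0) : E3) ∈ collarSet from time_mem h hy hz))
    exact ContDiffAt.comp (g := latMetric N) y hlat ht
  have hv : ∀ v : E3, ContDiffAt ℝ ∞ (fun y => frame e y v) y := fun v => by
    have hdr : ContDiffAt ℝ ∞ (fun y : E3 => drad e (planeProj y) (planeProj v)) y :=
      ((contDiffAt_drad e hz.1).comp y hπ).clm_apply contDiffAt_const
    have hda : ContDiffAt ℝ ∞ (fun y : E3 => dang e (planeProj y) (planeProj v)) y :=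
      ((contDiffAt_dang e hz.1).comp y hπ).clm_apply contDiffAt_const
    exact ((contDiffAt_const.mul hcirc).neg.mul hdr).prodMk
      (((contDiffAt_alpha h hy v).sub (contDiffAt_const.mul hda)).prodMk
        (contDiffAt_const.mul hda))
  exact (hG.clm_apply (hv v)).clm_apply (hv w)

theorem contDiffAt_pieceMetric (h : Ok N) {y : E3} (hy : planeProj y ∈ dom N) :
    ContDiffAt ℝ ∞ (pieceMetric N) y := by
  by_cases hc : ∃ e : Fin N, planeProj y ∈ zone e (depAt e (-4))
  · obtain ⟨e, he⟩ := hc
    have hev : pieceMetric N =ᶠ[𝓝 y] endMetric e := by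
      filter_upwards [planeProj.continuous.continuousAt.eventually
        ((show ∀ᶠ w in 𝓝 (planeProj y), w ∈ dom N from isOpen_dom.mem_nhds hy).and
          (show ∀ᶠ w in 𝓝 (planeProj y), w ∈ zone e (depAt e (-4)) from
            (isOpen_zone e _).mem_nhds he))] with y' hy'
      exact pieceMetric_of_zone h hy'.1
        (zone_mono e (depAt_lt h e (by norm_num) (by norm_num)).le hy'.2)
    refine ContDiffAt.congr_of_eventuallyEq ?_ hev
    exact contDiffAt_clm_apply fun v => contDiffAt_clm_apply fun w => contDiffAt_endMetric h hy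
      (zone_mono e (depAt_lt h e (by norm_num) (by norm_num)).le he) v w
  · refine ContDiffAt.congr_of_eventuallyEq ?_
      (pieceMetric_eventually_core h hy fun e he => hc ⟨e, he⟩)
    exact contDiffAt_clm_apply fun v => contDiffAt_clm_apply fun w =>
      contDiffAt_coreMetric h hy v w

theorem frame_injective (h : Ok N) {e : Fin N} {y : E3} (hq : 0 < qd e (planeProj y)) {v : E3}
    (hv : frame e y v = 0) : v = 0 := by
  have hc : circ e (planeProj y) ≠ 0 := (Real.exp_pos _).ne'
  have hs := sgn_ne e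
  have hπ := Real.pi_ne_zero
  simp only [frame, dang, drad, ContinuousLinearMap.prod_apply, FunLike.coe_smul, Pi.smul_apply,
    FunLike.coe_sub, Pi.sub_apply, ContinuousLinearMap.comp_apply, smul_eq_mul, lin_apply,
    Prod.mk_eq_zero, planeProj_apply] at hv hq
  obtain ⟨h1, h2, h3⟩ := hv
  have h1' := (mul_eq_zero.1 h1).resolve_left (neg_ne_zero.2 (mul_ne_zero hs hc))
  have h3' := (mul_eq_zero.1 h3).resolve_left (div_ne_zero hs (by positivity))
  rw [h3', mul_zero, sub_zero] at h2
  have hq2 : (y.1 - ctr e) ^ 2 + y.2.1 ^ 2 = qd e (y.1, y.2.1) := rfl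
  have hq0 := hq.ne'
  field_simp at h1' h3'
  have e1 : qd e (y.1, y.2.1) * v.1 = 0 := by
    linear_combination (y.1 - ctr e) * h1' - y.2.1 * h3' - v.1 * hq2
  have e2 : qd e (y.1, y.2.1) * v.2.1 = 0 := by
    linear_combination y.2.1 * h1' + (y.1 - ctr e) * h3' - v.2.1 * hq2
  have v1 := (mul_eq_zero.1 e1).resolve_left hq0
  have v2 := (mul_eq_zero.1 e2).resolve_left hq0
  refine Prod.ext v1 (Prod.ext v2 ?_)
  rw [alpha_apply, planeProj_apply v, v1, v2, Prod.mk_zero_zero, map_zero, add_zero] at h2
  exact h2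

theorem isMetricOn_pieceMetric (h : Ok N) :
    P216.Chord.IsMetricOn {y : E3 | (y.1, y.2.1) ∈ dom N} (pieceMetric N) where
  isOpen := isOpen_dom.preimage planeProj.continuous
  smooth y hy := (contDiffAt_pieceMetric h hy).contDiffWithinAt
  symm y hy v w := by
    by_cases hc : ∃ e : Fin N, planeProj y ∈ zone e (depAt e (-4))
    · obtain ⟨e, he⟩ := hc
      have he' := zone_mono e (depAt_lt h e (show (-5 : ℝ) < -4 by norm_num) (by norm_num)).le he
      simp only [pieceMetric_of_zone h hy he', endMetric, ContinuousLinearMap.bilinearComp_apply,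
        latMetric]
      exact h.good.metric.symm _ (time_mem h hy he') _ _
    · rw [(pieceMetric_eventually_core h hy fun e he => hc ⟨e, he⟩).self_of_nhds, coreMetric_apply,
        coreMetric_apply]
      ring
  pos y hy v hv := by
    by_cases hc : ∃ e : Fin N, planeProj y ∈ zone e (depAt e (-4))
    · obtain ⟨e, he⟩ := hc
      have he' := zone_mono e (depAt_lt h e (show (-5 : ℝ) < -4 by norm_num) (by norm_num)).le he
      simp only [pieceMetric_of_zone h hy he', endMetric, ContinuousLinearMap.bilinearComp_apply,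
        latMetric]
      refine h.good.metric.pos _ (time_mem h hy he') _ fun h0 => hv (frame_injective h he.1 ?_)
      simp only [latMap_apply, Prod.mk_eq_zero] at h0
      obtain ⟨a1, a2, a3⟩ := h0
      have b2 : (1 + eps N ^ 2) * (frame e y v).2.2 = 0 := by linear_combination eps N * a2 + a3
      have b3 := (mul_eq_zero.1 b2).resolve_left (by positivity)
      rw [b3, mul_zero, add_zero] at a2
      exact Prod.ext a1 (Prod.ext a2 b3)
    · rw [(pieceMetric_eventually_core h hy fun e he => hc ⟨e, he⟩).self_of_nhds, coreMetric_apply]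
      have hX := Real.exp_pos (2 * conf N (y.1, y.2.1))
      by_cases hp : v.1 = 0 ∧ v.2.1 = 0
      · have ha : alpha N y v ≠ 0 := fun ha => hv (by
          rw [alpha_apply, planeProj_apply, planeProj_apply, hp.1, hp.2, Prod.mk_zero_zero,
            map_zero, add_zero] at ha
          exact Prod.ext hp.1 (Prod.ext hp.2 ha))
        nlinarith [mul_self_pos.2 ha, mul_nonneg hX.le (add_nonneg (mul_self_nonneg v.1)
          (mul_self_nonneg v.2.1))]
      · have : 0 < v.1 * v.1 + v.2.1 * v.2.1 := by
          rcases not_and_or.1 hp with hp | hp <;>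
            nlinarith [mul_self_pos.2 hp, mul_self_nonneg v.1, mul_self_nonneg v.2.1]
        nlinarith [mul_self_nonneg (alpha N y v), mul_pos hX this]

end

end Vale.Agent.P255.Build
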