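import Vale.Agent.P255.Piece.Const
import Vale.Agent.P255.Piece.Conformal

/-!
The conformal exponent of the piece: subharmonic, and exactly conical deep in the ends.
-/

open Set Filter
open scoped ContDiff Topology

namespace Vale.Agent.P255.Build

noncomputable section

variable {N : ℕ}

/-- The harmonic part of the exponent. -/
def sigma (N : ℕ) (z : ℝ × ℝ) : ℝ :=
  shiftC N + ∑ i ∈ fins N, -(1 - 2 * kap N) * lg i z

/-- The harmonic difference between the cone exponent of an end and `sigma`. -/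
def gap (e : Fin N) (z : ℝ × ℝ) : ℝ :=
  (-1 + sgn e * kap N) * lg e z + cst e + (1 - 2 * kap N) * ∑ i ∈ fins N, lg i z

open Classical in
/-- The conformal exponent. -/
def conf (N : ℕ) (z : ℝ × ℝ) : ℝ :=
  sigma N z + ∑ e : Fin N, if z ∈ zone e (cut e) then psi (gap e z) else 0

theorem hasLap_lg (e : Fin N) {z : ℝ × ℝ} (hz : 0 < qd e z) : HasLap (lg e) z 0 := by
  have hq : ∀ w : ℝ × ℝ, HasFDerivAt (qd e) (lin (2 * (w.1 - ctr e)) (2 * w.2)) w := fun w =>
    (((hasFDerivAt_fst (𝕜 := ℝ) (p := w)).sub_const (ctr e)).pow 2 |>.fun_add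
      ((hasFDerivAt_snd (𝕜 := ℝ) (p := w)).pow 2)).congr_fderiv (by ext v <;> simp)
  have hi : HasFDerivAt (fun w => (qd e w)⁻¹)
      ((-(qd e z ^ 2)⁻¹) • lin (2 * (z.1 - ctr e)) (2 * z.2)) z :=
    (hasDerivAt_inv hz.ne').comp_hasFDerivAt z (hq z)
  refine ⟨fun w => (w.1 - ctr e) * (qd e w)⁻¹, fun w => w.2 * (qd e w)⁻¹,
    (qd e z)⁻¹ - 2 * (z.1 - ctr e) ^ 2 * (qd e z ^ 2)⁻¹,
    -(2 * (z.1 - ctr e) * z.2 * (qd e z ^ 2)⁻¹),
    (qd e z)⁻¹ - 2 * z.2 ^ 2 * (qd e z ^ 2)⁻¹, ⟨?_, ?_, ?_⟩, ?_⟩
  · filter_upwards [(isOpen_lt continuous_const (continuous_qd e)).mem_nhds hz] with w hw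
    have := ((Real.hasDerivAt_log (ne_of_gt hw)).comp_hasFDerivAt w (hq w)).mul_const (2⁻¹ : ℝ)
    refine this.congr_fderiv ?_
    ext v <;> simp <;> ring
  · exact (((hasFDerivAt_fst (𝕜 := ℝ) (p := z)).sub_const (ctr e)).fun_mul hi).congr_fderiv
      (by ext v <;> simp <;> ring)
  · exact ((hasFDerivAt_snd (𝕜 := ℝ) (p := z)).fun_mul hi).congr_fderiv
      (by ext v <;> simp <;> ring)
  · have h2 : (z.1 - ctr e) ^ 2 + z.2 ^ 2 = qd e z := rfl
    field_simp
    linarith

theorem contDiffAt_lg {m : WithTop ℕ∞} (e : Fin N) {z : ℝ × ℝ} (hz : 0 < qd e z) :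
    ContDiffAt ℝ m (lg e) z := by
  have h1 : ContDiffAt ℝ m (qd e) z := by unfold qd; fun_prop
  exact (h1.log hz.ne').div_const 2

theorem hasLap_sigma {z : ℝ × ℝ} (hz : ∀ i : Fin N, i.val ≠ 0 → 0 < qd i z) :
    HasLap (sigma N) z 0 := by
  have h := (hasLap_const (shiftC N) z).add (hasLap_sum (fins N)
    (u := fun i x => -(1 - 2 * kap N) * lg i x) fun i hi => by
      simpa using (hasLap_lg i (hz i (mem_fins.1 hi))).const_mul (-(1 - 2 * kap N)))
  rw [add_zero] at h
  exact h

theorem hasLap_gap {e : Fin N} {z : ℝ × ℝ} (hz : z ∈ zone e (cut e + Real.log 2)) :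
    HasLap (gap e) z 0 := by
  have h := (((hasLap_lg e hz.1).const_mul (-1 + sgn e * kap N)).add
    (hasLap_const (cst e) z)).add ((hasLap_sum (fins N) (u := fun i x => lg i x) fun i hi =>
      hasLap_lg i (zone_qd_pos (mem_fins.1 hi) hz)).const_mul (1 - 2 * kap N))
  simp only [mul_zero, add_zero] at h
  exact h

theorem gap_approx (h : Ok N) {e : Fin N} {z : ℝ × ℝ}
    (hz : z ∈ zone e (cut e + Real.log 2)) :
    |gap e z - (cst e - grow e * dep e z)| ≤ bound N := by
  have hN : (5 : ℝ) ≤ N := by exact_mod_cast h.five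
  have hk := kap_pos h
  have hk' := kap_lt h
  have hlog : Real.log (1 / 4) = -(2 * Real.log 2) := by
    rw [one_div, Real.log_inv, show (4 : ℝ) = 2 * 2 by norm_num,
      Real.log_mul (by norm_num) (by norm_num)]
    ring
  by_cases he : e.val = 0
  · have key : gap e z - (cst e - grow e * dep e z) =
        (1 - 2 * kap N) * ∑ i ∈ fins N, (lg i z - lg e z) := by
      rw [Finset.sum_sub_distrib, Finset.sum_const, nsmul_eq_mul, card_fins h]
      simp only [gap, grow, dep, sgn, he, ↓reduceIte]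
      ring
    rw [key, abs_mul, abs_of_nonneg (by linarith : (0 : ℝ) ≤ 1 - 2 * kap N)]
    have hterm : ∀ i ∈ fins N, |lg i z - lg e z| ≤ Real.log (2 * N) := fun i hi => by
      have hie : i ≠ e := fun hh => (mem_fins.1 hi) (hh ▸ he)
      obtain ⟨h1, h2, -⟩ := far (mem_fins.1 hi) hie hz
      obtain ⟨h2, h3⟩ := h2 he
      have hq := hz.1
      have e1 := Real.log_le_log (by linarith : (0 : ℝ) < qd e z / 4) h2
      have e2 := Real.log_le_log (by linarith : (0 : ℝ) < qd i z) h3
      rw [Real.log_div hq.ne' (by norm_num)] at e1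
      rw [Real.log_mul (by norm_num) hq.ne'] at e2
      have e3 : Real.log 4 = 2 * Real.log 2 := by
        rw [show (4 : ℝ) = 2 * 2 by norm_num, Real.log_mul (by norm_num) (by norm_num)]; ring
      have e4 := Real.log_le_log two_pos (show (2 : ℝ) ≤ 2 * N by linarith)
      unfold lg
      rw [abs_le]
      constructor <;> linarith
    calc (1 - 2 * kap N) * |∑ i ∈ fins N, (lg i z - lg e z)|
        ≤ 1 * ((fins N).card • Real.log (2 * N)) := mul_le_mul (by linarith)
          ((Finset.abs_sum_le_sum_abs _ _).trans (Finset.sum_le_card_nsmul _ _ _ hterm))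
          (abs_nonneg _) zero_le_one
      _ ≤ bound N := by
          rw [one_mul, nsmul_eq_mul, card_fins h, bound]
          exact mul_le_mul_of_nonneg_right (by linarith) (Real.log_nonneg (by linarith))
  · have hmem : e ∈ fins N := mem_fins.2 he
    have key : gap e z - (cst e - grow e * dep e z) =
        (1 - 2 * kap N) * ∑ i ∈ (fins N).erase e, lg i z := by
      rw [gap, ← Finset.add_sum_erase _ _ hmem]
      simp only [grow, dep, sgn, he, ↓reduceIte]
      ring
    rw [key, abs_mul, abs_of_nonneg (by linarith : (0 : ℝ) ≤ 1 - 2 * kap N)]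
    have hterm : ∀ i ∈ (fins N).erase e, |lg i z| ≤ Real.log (2 * N) := fun i hi => by
      obtain ⟨hie, hi⟩ := Finset.mem_erase.1 hi
      obtain ⟨h1, -, h3⟩ := far (mem_fins.1 hi) hie hz
      have e1 := Real.log_le_log (by norm_num : (0 : ℝ) < 1 / 4) h1
      have e2 := Real.log_le_log (by linarith : (0 : ℝ) < qd i z) (h3 he)
      rw [Real.log_pow] at e2
      push_cast at e2
      have e4 := Real.log_le_log two_pos (show (2 : ℝ) ≤ 2 * N by linarith)
      unfold lg
      rw [abs_le]
      constructor <;> linarith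
    calc (1 - 2 * kap N) * |∑ i ∈ (fins N).erase e, lg i z|
        ≤ 1 * (((fins N).erase e).card • Real.log (2 * N)) := mul_le_mul (by linarith)
          ((Finset.abs_sum_le_sum_abs _ _).trans (Finset.sum_le_card_nsmul _ _ _ hterm))
          (abs_nonneg _) zero_le_one
      _ ≤ bound N := by
          rw [one_mul, nsmul_eq_mul, bound]
          refine mul_le_mul_of_nonneg_right ?_ (Real.log_nonneg (by linarith))
          exact_mod_cast (Finset.card_le_univ ((fins N).erase e)).trans_eq (Fintype.card_fin N)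

theorem gap_nonpos (h : Ok N) {e : Fin N} {z : ℝ × ℝ}
    (hz : z ∈ zone e (cut e + Real.log 2)) (hd : cut e - Real.log 2 ≤ dep e z) : gap e z ≤ 0 := by
  have h1 := (abs_le.1 (gap_approx h hz)).2
  have h2 := mul_le_mul_of_nonneg_left hd (grow_pos h e).le
  simp only [cst] at h1
  linarith

theorem one_le_gap (h : Ok N) {e : Fin N} {z : ℝ × ℝ} (hz : z ∈ zone e (deep e)) :
    1 ≤ gap e z := by
  have hl := Real.log_pos (show (1 : ℝ) < 2 by norm_num)
  have h1 := (abs_le.1 (gap_approx h (zone_mono e (by linarith [deep_le h e]) hz))).1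
  have hg := grow_pos h e
  have h2 := mul_le_mul_of_nonneg_left hz.2.le hg.le
  have h3 : grow e * deep e = grow e * (cut e - Real.log 2) - (2 * bound N + 1) := by
    rw [deep, mul_sub, mul_div_cancel₀ _ hg.ne']
  simp only [cst] at h1
  linarith

theorem conf_eq_zone (h : Ok N) {e : Fin N} {z : ℝ × ℝ}
    (hz : z ∈ zone e (cut e + Real.log 2)) : conf N z = sigma N z + psi (gap e z) := by
  classical
  have hl := Real.log_pos (show (1 : ℝ) < 2 by norm_num)
  rw [conf, Finset.sum_eq_single e]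
  · split_ifs with hc
    · rfl
    · rw [psi_of_nonpos (gap_nonpos h hz ?_)]
      have : cut e ≤ dep e z := not_lt.1 fun hlt => hc ⟨hz.1, hlt⟩
      linarith
  · intro i _ hi
    rw [if_neg fun hc => zone_disjoint (Ne.symm hi) hz (zone_mono i (by linarith) hc)]
  · simp

theorem conf_eq_outside (h : Ok N) {z : ℝ × ℝ} (hz : z ∈ dom N)
    (hout : ∀ e : Fin N, z ∉ zone e (cut e + Real.log 2)) : conf N =ᶠ[𝓝 z] sigma N := by
  classical
  have hl := Real.log_pos (show (1 : ℝ) < 2 by norm_num)
  have hev : ∀ e : Fin N, ∀ᶠ w in 𝓝 z, w ∉ zone e (cut e) := by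
    intro e
    by_cases he : e.val = 0
    · have hlt : qd e z < Real.exp (-2 * cut e) := by
        rcases (qd_nonneg e z).eq_or_lt with hq | hq
        · rw [← hq]; exact Real.exp_pos _
        · have h1 : ¬ dep e z < cut e + Real.log 2 := fun hc => hout e ⟨hq, hc⟩
          have h2 : cut e < dep e z := by linarith [not_lt.1 h1]
          simpa [he] using (lt_dep_iff hq).1 h2
      filter_upwards [(isOpen_lt (continuous_qd e) continuous_const).mem_nhds hlt] with w hw hc
      have h3 := (dep_lt_iff hc.1).1 hc.2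
      rw [if_pos he] at h3
      exact absurd h3 (not_lt.2 (le_of_lt hw))
    · have hq : 0 < qd e z := ((mem_dom_iff h).1 hz).1 e he
      have h1 : ¬ dep e z < cut e + Real.log 2 := fun hc => hout e ⟨hq, hc⟩
      have h2 : cut e < dep e z := by linarith [not_lt.1 h1]
      have hlt : Real.exp (2 * cut e) < qd e z := by simpa [he] using (lt_dep_iff hq).1 h2
      filter_upwards [(isOpen_lt continuous_const (continuous_qd e)).mem_nhds hlt] with w hw hc
      have h3 := (dep_lt_iff hc.1).1 hc.2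
      rw [if_neg he] at h3
      exact absurd h3 (not_lt.2 (le_of_lt hw))
  filter_upwards [eventually_all.2 hev] with w hw
  rw [conf, Finset.sum_eq_zero fun e _ => if_neg (hw e), add_zero]

theorem hasLap_conf (h : Ok N) {z : ℝ × ℝ} (hz : z ∈ dom N) :
    ∃ L, 0 ≤ L ∧ HasLap (conf N) z L := by
  have hpos := ((mem_dom_iff h).1 hz).1
  by_cases hc : ∃ e : Fin N, z ∈ zone e (cut e + Real.log 2)
  · obtain ⟨e, he⟩ := hc
    obtain ⟨L, hL, hL'⟩ := (hasLap_gap he).convex_comp (f := psi) (f' := Real.smoothTransition)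
      (f'' := deriv Real.smoothTransition) hasDerivAt_psi
      ((Real.smoothTransition.contDiff (n := 1)).differentiable one_ne_zero _).hasDerivAt
      (deriv_smoothTransition_nonneg _)
    refine ⟨0 + L, by linarith, ((hasLap_sigma hpos).add hL').congr ?_⟩
    filter_upwards [(isOpen_zone e _).mem_nhds he] with w hw
    exact conf_eq_zone h hw
  · exact ⟨0, le_rfl, (hasLap_sigma hpos).congr (conf_eq_outside h hz fun e he => hc ⟨e, he⟩)⟩

theorem contDiffOn_conf (h : Ok N) : ContDiffOn ℝ ∞ (conf N) (dom N) := by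
  intro z hz
  have hpos := ((mem_dom_iff h).1 hz).1
  have hs : ContDiffAt ℝ ∞ (sigma N) z := contDiffAt_const.add
    (ContDiffAt.sum fun i hi => contDiffAt_const.mul (contDiffAt_lg i (hpos i (mem_fins.1 hi))))
  refine ContDiffAt.contDiffWithinAt ?_
  by_cases hc : ∃ e : Fin N, z ∈ zone e (cut e + Real.log 2)
  · obtain ⟨e, he⟩ := hc
    have hg : ContDiffAt ℝ ∞ (gap e) z :=
      ((contDiffAt_const.mul (contDiffAt_lg e he.1)).add contDiffAt_const).add
        (contDiffAt_const.mul (ContDiffAt.sum fun i hi =>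
          contDiffAt_lg i (hpos i (mem_fins.1 hi))))
    refine (hs.add (contDiff_psi.contDiffAt.comp z hg)).congr_of_eventuallyEq ?_
    filter_upwards [(isOpen_zone e _).mem_nhds he] with w hw
    exact conf_eq_zone h hw
  · exact hs.congr_of_eventuallyEq (conf_eq_outside h hz fun e he => hc ⟨e, he⟩)

/-- Deep in an end the exponent is exactly conical. -/
theorem exp_two_conf (h : Ok N) {e : Fin N} {z : ℝ × ℝ} (hz : z ∈ zone e (deep e)) :
    Real.exp (2 * conf N z) = circ e z ^ 2 / qd e z := by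
  have hl := Real.log_pos (show (1 : ℝ) < 2 by norm_num)
  rw [conf_eq_zone h (zone_mono e (by linarith [deep_le h e]) hz),
    psi_of_one_le (one_le_gap h hz), eq_div_iff hz.1.ne', circ, ← Real.exp_nat_mul]
  conv_lhs => rw [← Real.exp_log hz.1, ← Real.exp_add]
  congr 1
  have hs : ∑ i ∈ fins N, -(1 - 2 * kap N) * lg i z =
      -((1 - 2 * kap N) * ∑ i ∈ fins N, lg i z) := by
    rw [Finset.mul_sum, ← Finset.sum_neg_distrib]
    simp only [neg_mul]
  simp only [sigma, hs, gap, off, dep]
  generalize ∑ i ∈ fins N, lg i z = S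
  simp only [lg]
  push_cast
  ring

end

end Vale.Agent.P255.Build
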